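import Claimed.Agent.R256.Nm.Mem.X6

/-!
# Row 256 (S0496), unit NM, block MEM, file 5: Y5, PROFILES I (`p_*`, the profile `HP`, `R_j (u j) = 0`, (mr), left memory)      (architect helper198; prefix `nm_me_`)

Everything is glue on `Mem/Uf.lean` (ultralimits) and the TYPE A statements of `Mem/X6.lean`.   `τ = 1`, `κ0 = κ 1`.
EXITS: `nm_me_pst`, `nm_me_mr`, `nm_me_m_left` (extra hypothesis `hP` = `nm_pred_left` at the same parameters).
-/

set_option autoImplicit false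

namespace Claimed.Agent.R256

open Claimed.Agent.R255
open Claimed.Agent.R255.FLaw (pair)
open Filter Topology
open Classical

noncomputable section

variable {π : SfPar} {C0 : ℝ} {κ : ℝ → ℝ} (S : NmSeq π C0 κ)

theorem nm_me_core (n : ℕ) : (S.D n).Core π C0 (S.t n) := (S.fine n 1 one_pos).ok.core

/-- angular cells: bounded profiles -/
theorem nm_me_ubdd_X {β : ℕ → Type} (x : ℝ) (Y : S.Obs β) :
    UBdd fun n => ((S.D n).P 1).entC ((S.D n).Xc x) (Y n) / (S.D n).lgs := by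
  refine nm_me_ubdd S (fun n ω => ((S.D n).ray 1 ω).X) x C0 1 zero_le_one (Eventually.of_forall fun n ω _ => ?_) Y
  have h := ((nm_me_core S n).bdd 1 (nm_me_core S n).gate.1 ω).1
  rw [one_mul]
  exact (le_max_left _ _).trans h

/-- bins of the derivative: bounded profiles -/
theorem nm_me_ubdd_P {β : ℕ → Type} (ds : NmDs) (hDe : ds.De = 1) (x : ℝ) (Y : S.Obs β) :
    UBdd fun n => ((S.D n).P 1).entC ((S.D n).Pc π ds x) (Y n) / (S.D n).lgs :=
  nm_me_ubdd S (fun n ω => ((S.D n).raw π ds ω).P) x (2 * C0 + 1) 11 (by norm_num)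
    (Eventually.of_forall fun n ω _ => nm_me_P_bdd (nm_me_core S n) hDe ω) Y

theorem nm_me_HP_nonneg (ds : NmDs) (hDe : ds.De = 1) (x z : ℝ) : 0 ≤ S.HP ds x z :=
  nm_me_HC_nonneg S _ _ (nm_me_ubdd_P S ds hDe x _)

/-- `HP` is nondecreasing in the depth -/
theorem nm_me_HP_mono (ds : NmDs) (hDe : ds.De = 1) (z : ℝ) {x x' : ℝ} (h : x ≤ x') : S.HP ds x z ≤ S.HP ds x' z := by
  refine ulim_le _ _ (nm_me_ubdd_P S ds hDe x _) (nm_me_ubdd_P S ds hDe x' _) (Eventually.of_forall fun n => ?_)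
  refine div_le_div_of_nonneg_right ?_ (nm_me_lgs_pos S n).le
  refine ent_entC_mono _ _ _ _ fun ω ω' _ _ hx _ => ?_
  exact nm_cell_nest (nm_me_s S n).1 (nm_me_s S n).2 h hx

/-- `HP` is nonincreasing in the time depth -/
theorem nm_me_HP_anti (ds : NmDs) (hDe : ds.De = 1) (x : ℝ) {z z' : ℝ} (h : z ≤ z') : S.HP ds x z' ≤ S.HP ds x z := by
  refine ulim_le _ _ (nm_me_ubdd_P S ds hDe x _) (nm_me_ubdd_P S ds hDe x _) (Eventually.of_forall fun n => ?_)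
  refine div_le_div_of_nonneg_right ?_ (nm_me_lgs_pos S n).le
  refine ent_entC_anti _ _ _ _ fun ω ω' _ _ hx => ?_
  have h1 : (S.D n).y0 ω = (S.D n).y0 ω' := congrArg Prod.fst hx
  have h2 : (S.D n).tc z' ω = (S.D n).tc z' ω' := congrArg Prod.snd hx
  exact Prod.ext h1 (nm_cell_nest (nm_me_s S n).1 (nm_me_s S n).2 h h2)

/-- the score vanishes on the graph `x = b_1 a` -/
theorem nm_me_HP_graph (hπ : π.Valid) (hX : S.HasX) (hc : π.hyb = false) (hb : 0 < π.Cr) (ds : NmDs) (hds : ds.Raw π) (a : ℝ) (ha : 0 < a ∧ a < 1) :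
    S.HP ds (π.b1 a) a = 0 :=
  nm_me_HC_zero S _ _ fun e he => nm_me_uf S hX 1 one_pos _ (nm_me_plist π hπ hc hb C0 1 (κ 1) ds hds a ha) e he

/-- the score vanishes at very coarse depths -/
theorem nm_me_HP_neg (hX : S.HasX) (ds : NmDs) (hDe : ds.De = 1) (x a : ℝ) (hx : x ≤ -(2 * C0 + 1)) : S.HP ds x a = 0 :=
  nm_me_HC_zero S _ _ fun e he => nm_me_uf S hX 1 one_pos _ (nm_me_pneg π C0 1 (κ 1) ds hDe x a hx) e he

include S in
theorem nm_me_C0 : 0 ≤ C0 := nm_C0_nonneg (nm_me_core S 0)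

/-- the set defining `p_*` -/
theorem nm_me_pst_set (hX : S.HasX) (ds : NmDs) (hDe : ds.De = 1) (a : ℝ) :
    ({x : ℝ | x ≤ 1 ∧ S.HP ds x a = 0}).Nonempty ∧ BddAbove {x : ℝ | x ≤ 1 ∧ S.HP ds x a = 0} := by
  refine ⟨⟨-(2 * C0 + 1), ?_, nm_me_HP_neg S hX ds hDe _ a le_rfl⟩, ⟨1, fun x hx => hx.1⟩⟩
  have := nm_me_C0 S
  linarith

/-- **Y5** `p_*` is nondecreasing and `≥ b_1` if `b_1' > 0` -/
theorem nm_me_pst (hπ : π.Valid) (hX : S.HasX) (hc : π.hyb = false) (ds : NmDs) (hds : ds.Raw π) :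
    (∀ a a' : ℝ, 0 < a → a ≤ a' → a' < 1 → S.pst ds a ≤ S.pst ds a') ∧ (0 < π.Cr → ∀ a : ℝ, 0 < a → a < 1 → π.b1 a ≤ S.pst ds a) := by
  refine ⟨fun a a' _ haa _ => ?_, fun hb a h0 h1 => ?_⟩
  · refine csSup_le_csSup (nm_me_pst_set S hX ds hds.1 a').2 (nm_me_pst_set S hX ds hds.1 a).1 fun x hx => ⟨hx.1, ?_⟩
    exact le_antisymm ((nm_me_HP_anti S ds hds.1 x haa).trans (le_of_eq hx.2)) (nm_me_HP_nonneg S ds hds.1 x a')
  · refine le_csSup (nm_me_pst_set S hX ds hds.1 a).2 ⟨?_, nm_me_HP_graph S hπ hX hc hb ds hds a ⟨h0, h1⟩⟩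
    have : π.b1 a = π.Cr * (a - 1) := rfl
    rw [this]
    nlinarith

/-- below `p_*` the score vanishes -/
theorem nm_me_HP_below (hX : S.HasX) (ds : NmDs) (hDe : ds.De = 1) {x a : ℝ} (h : x < S.pst ds a) : S.HP ds x a = 0 := by
  obtain ⟨y, hy, hxy⟩ := exists_lt_of_lt_csSup (nm_me_pst_set S hX ds hDe a).1 h
  exact le_antisymm ((nm_me_HP_mono S ds hDe a hxy.le).trans (le_of_eq hy.2)) (nm_me_HP_nonneg S ds hDe x a)

/-- eventually the gate near `j < 1` lies below `1` -/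
theorem nm_me_gt_lt {j : ℝ} (hj : 0 ≤ j ∧ j < 1) : ∀ᶠ n in uf, (S.D n).gt j < 1 := by
  filter_upwards [nm_me_fine_ev S 1 one_pos ((1 - j) / 2) (by linarith)] with n hn
  have := abs_le.1 (nm_gt_near hn hj.1 hj.2.le)
  linarith [this.2]

/-- a power of the scale is eventually small -/
theorem nm_me_pow_small {a e : ℝ} (ha : 0 < a) (he : 0 < e) : ∀ᶠ n in uf, (S.D n).s ^ a ≤ e := by
  obtain ⟨t0, h0, -, -, -, h⟩ := nm_me_t0 a (1 / e) ha
  filter_upwards [nm_me_s_small S t0 h0] with n hn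
  have := h _ (nm_me_s S n).1 hn
  rwa [one_div, inv_mul_le_iff₀ he, mul_one] at this

/-- **Y5** (mr) in prefix form -/
theorem nm_me_mr (hπ : π.Valid) (hX : S.HasX) (hc : π.hyb = false) (j : ℝ) (hj : 0 < j ∧ j < 1) :
    S.Rj j (π.u j) = 0 ∧ ∀ z : ℝ, 0 < z → z < π.Lraw * j → π.mu π.Lraw * z ≤ S.Rj j (π.u j + z) := by
  refine ⟨nm_me_HC_zero S _ _ fun e he => nm_me_uf S hX 1 one_pos _ (nm_me_xlist π hπ hc C0 1 (κ 1) j hj) e he, fun z hz0 hz1 => ?_⟩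
  refine nm_me_HC_lb S _ _ (nm_me_ubdd_X S _ _) _ fun e he => ?_
  have hacc : 0 < e / z := div_pos he hz0
  filter_upwards [nm_me_uf S hX 1 one_pos _ (nm_me_mem_label π hπ C0 1 (κ 1) j z hj ⟨hz0, hz1⟩) (e / z) hacc,
    nm_me_gt_lt S ⟨hj.1.le, hj.2⟩, nm_me_pow_small S (a := e / 4) (by positivity) he] with n hn hgt hsm cl hcl
  have e1 : (π.mu π.Lraw - e / z) * z = π.mu π.Lraw * z - e := by field_simp
  have e2 : e / z * z / 4 = e / 4 := by field_simp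
  have h1 := hn cl (fun g => by rw [e1]; exact hcl g)
  rw [e2] at h1
  refine le_trans (ent_pr_mono _ fun ω _ hω ρ hρ => ?_) (h1.trans hsm)
  have := nm_labAt_eq (nm_me_core S n) hc (ne_of_lt hj.2) hgt hρ
  rw [← this]
  exact hω

/-- **Y5** the left memory bound.   `hP` = `nm_pred_left π hπ C0 1 (κ 1) q hq hg hg0 hJ a j ha hl hh` -/
theorem nm_me_m_left (hπ : π.Valid) (hX : S.HasX) (q : NmQ) (a j : ℝ) (ha : 0 ≤ a ∧ a < j ∧ j < 1)
    (hP : NmA π C0 1 (κ 1) fun acc D => D.LabPr (D.gt j) (fun _ => True) (D.nm π q a (π.u j)) (fun _ => ()) (D.s ^ (-acc))) :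
    ∀ z : ℝ, 0 < z → z < π.Lraw * j → π.mu π.Lraw * z ≤ S.U q (π.u j + z) a (π.u j) := by
  intro z hz0 hz1
  have hj : 0 < j ∧ j < 1 := ⟨lt_of_le_of_lt ha.1 ha.2.1, ha.2.2⟩
  refine nm_me_HC_lb S _ _ (nm_me_ubdd_X S _ _) _ fun e he => ?_
  have hacc : 0 < e / (2 * z) := by positivity
  filter_upwards [nm_me_uf S hX 1 one_pos _ (nm_me_mem_label π hπ C0 1 (κ 1) j z hj ⟨hz0, hz1⟩) (e / (2 * z)) hacc,
    nm_me_uf S hX 1 one_pos _ hP (e / 2) (by positivity),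
    nm_me_gt_lt S ⟨hj.1.le, hj.2⟩, nm_me_pow_small S (a := e / 8) (by positivity) he] with n hn hpr hgt hsm cl hcl
  obtain ⟨h0, hs1⟩ := nm_me_s S n
  choose Ls hLs hLm using fun lam => hpr lam ()
  have e2 : e / (2 * z) * z / 4 = e / 8 := by field_simp; ring
  have h1 := hn (fun lam => (Ls lam).biUnion cl) (fun lam => by
    have e1 : -((π.mu π.Lraw - e / (2 * z)) * z) = -(e / 2) + -(π.mu π.Lraw * z - e) := by field_simp; ring
    rw [e1, Real.rpow_add h0]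
    have hb : ∀ c₀ ∈ Ls lam, ((cl c₀).card : ℝ) ≤ (S.D n).s ^ (-(π.mu π.Lraw * z - e)) := fun c₀ _ => hcl c₀
    have h3 : (((Ls lam).biUnion cl).card : ℝ) ≤ ∑ c₀ ∈ Ls lam, ((cl c₀).card : ℝ) := by
      exact_mod_cast Finset.card_biUnion_le
    have h4 := Finset.sum_le_card_nsmul (Ls lam) (fun c₀ => ((cl c₀).card : ℝ)) _ hb
    rw [nsmul_eq_mul] at h4
    exact h3.trans (h4.trans (mul_le_mul_of_nonneg_right (hLs lam) (Real.rpow_nonneg h0.le _))))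
  rw [e2] at h1
  refine le_trans (ent_pr_mono _ fun ω _ hω ρ hρ => ?_) (h1.trans hsm)
  rw [Finset.mem_biUnion]
  refine ⟨(S.D n).nm π q a (π.u j) ω, hLm _ ω ?_ trivial rfl, hω⟩
  unfold SfDoc.Met
  rw [if_neg (ne_of_lt hgt)]
  exact ⟨ρ, rfl, hρ⟩

end

end Claimed.Agent.R256
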