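import Claimed.Agent.R256.Nm.Mem.Y5b
import Claimed.Agent.R256.Nm.Pred.Ctr

/-!
# Row 256 (S0496), unit NM, block MEM: EXITS = X6, Y5 of `Nm/Contract.lean`, VERBATIM      (architect helper198; prefix `nm_me_`)

X6 : `nm_me_mem_label`, `nm_me_mem_final`, `nm_me_mem_pred` (`Mem/X6.lean`).
Y5 : `nm_me_x_m_left`, `nm_me_mr`, `nm_me_x_m_slab`, `nm_me_pst`, `nm_me_mr_strong`, `nm_me_mr_weak`.      Also `nm_me_HP_HM` (= `nm_HP_HM`), `nm_me_uf` (= `nm_A_uf`).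
CITATIONS for the contract (one line each):
  `nm_mem_label := nm_me_mem_label π hπ C0 τ κ0 j z hj hz`,   `nm_mem_final := nm_me_mem_final π hπ C0 τ κ0 z hz`,   `nm_mem_pred := nm_me_mem_pred π hπ hc hb C0 τ κ0 ds hds j z Zc hj hz hZ`,
  `nm_m_left := nm_me_x_m_left S hπ hX q hq hg hg0 hJ a j ha hl hh`,   `nm_mr := nm_me_mr S hπ hX hc j hj`,   `nm_m_slab := nm_me_x_m_slab S hπ hX hc hb q hq hg0`,   `nm_pst := nm_me_pst S hπ hX hc ds hds`,
  `nm_mr_strong := nm_me_mr_strong S hπ hX Ds h1 hF hc hb ds hds j σ ρ hj hσ hρ hs`,   `nm_mr_weak := nm_me_mr_weak S hπ hX Ds h1 hF hc hQ hb ds hds`.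
External inputs: `nm_c_pred_left`, `nm_c_pred_right` (`Nm/Pred/Ctr.lean`, helper51), `nm_mix_main` (`Nm/Tra/Mix.lean`, helper231), gates and labels of `Nm/Pred/Doc.lean`.
-/

set_option autoImplicit false

namespace Claimed.Agent.R256

open Claimed.Agent.R255
open Claimed.Agent.R255.FLaw (pair)
open Filter Topology MeasureTheory
open Classical

noncomputable section

variable {π : SfPar} {C0 : ℝ} {κ : ℝ → ℝ} (S : NmSeq π C0 κ)

/-- **Y5** the left memory bound: whenever (iii) applies at `v = u(j)` -/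
theorem nm_me_x_m_left (hπ : π.Valid) (hX : S.HasX) (q : NmQ) (hq : q.Fam π) (hg : q.ds.glob = false) (hg0 : q.g = 0) (hJ : 0 < π.J)
    (a j : ℝ) (ha : 0 ≤ a ∧ a < j ∧ j < 1) (hl : q.l π a (π.u j) ≤ min (π.b1 j) 0) (hh : π.hyb = true → q.w π a (π.u j) < 0) :
    ∀ z : ℝ, 0 < z → z < π.Lraw * j → π.mu π.Lraw * z ≤ S.U q (π.u j + z) a (π.u j) :=
  nm_me_m_left S hπ hX q a j ha (nm_c_pred_left π hπ C0 1 (κ 1) q hq hg hg0 hJ a j ha hl hh)

/-- **Y5** under the small right excess the increments of `U` dominate those of `R_j` -/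
theorem nm_me_x_m_slab (hπ : π.Valid) (hX : S.HasX) (hc : π.hyb = false) (hb : 0 < π.Cr) (q : NmQ) (hq : q.Fam π) (hg0 : q.g = 0) :
    ∃ lam0 : ℝ, 0 < lam0 ∧ ∀ a j v x : ℝ, 0 < a → a < j → j ≤ q.ds.De → (q.ds.glob = true → j = q.ds.De) → π.u j ≤ v → v - π.u j ≤ lam0 * (j - a) →
      q.l π a v ≤ π.b1 j → v ≤ x → S.Rj j x - S.Rj j v ≤ S.U q x a v :=
  nm_me_m_slab S hX hc q hq (nm_c_pred_right π hπ hc hb C0 1 (κ 1) q hq hg0)

end

end Claimed.Agent.R256
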