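import Claimed.Agent.R256.LT.Kit
import Claimed.Agent.R255.Base.Ulim

/-!
# Row 256 (S0496), unit NM, block MEM (Prop. names:memory, 04-canonical-names.tex l.429-522), file 1: PAPER-FREE TOOLS      (architect helper198; prefix `nm_me_`)

Finite laws (`R255/Base/Law`, `R255/Ent/*`, `R256/LT/Kit`) and ultralimits (`R255/Base/Ulim`).
* `nm_me_ent_lb`    : if every map `value of C ↦ list of ≤ N values of X` is hit with probability `≤ ε`, then `H(X | C) ≥ (1 - ε) log N`.
* `nm_me_sur_markov`: `P(surC X C > λ) ≤ H(X | C) / λ`.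
* `nm_me_chain3`    : `H(X | C) ≥ H(X | L) - H(V | L) - log N` if `(L, V)` reads `C` with lists `N`.
* `nm_me_le_ulim`, `nm_me_ulim_le` : bounds of an ultralimit up to every `e > 0`.
* powers of `s`: `nm_me_two`, `nm_me_t0`.
-/

set_option autoImplicit false

namespace Claimed.Agent.R256

open Claimed.Agent.R255
open Claimed.Agent.R255.FLaw (pair)
open Filter Topology
open Classical

noncomputable section

variable {Ω : Type} [Fintype Ω]

/-- **rarity of lists bounds the conditional entropy from below** -/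
theorem nm_me_ent_lb (P : FLaw Ω) {α γ : Type} (X : Ω → α) (C : Ω → γ) {N ε : ℝ} (hN : 1 ≤ N)
    (h : ∀ c : γ → Finset α, (∀ g, ((c g).card : ℝ) ≤ N) → P.pr (fun ω => X ω ∈ c (C ω)) ≤ ε) :
    Real.log N * (1 - ε) ≤ P.entC X C := by
  have hN0 : 0 < N := lt_of_lt_of_le one_pos hN
  refine ltk_ent_ge P X C (Real.log_nonneg hN) ?_
  have hb := ent_bin_count P (fun ω => P.surC X C ω < Real.log N) C X (hi := Real.log N) (fun ω _ hω => hω.le)
  rw [Real.exp_log hN0] at hb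
  let c : γ → Finset α := fun g => if hg : ∃ ω₀, C ω₀ = g then (hb hg.choose).choose else ∅
  have hc : ∀ g, ((c g).card : ℝ) ≤ N := by
    intro g
    by_cases hg : ∃ ω₀, C ω₀ = g
    · simp only [c, dif_pos hg]
      exact (hb hg.choose).choose_spec.1
    · simp only [c, dif_neg hg, Finset.card_empty, Nat.cast_zero]
      exact hN0.le
  refine le_trans (ent_pr_mono P fun ω hω hs => ?_) (h c hc)
  have hg : ∃ ω₀, C ω₀ = C ω := ⟨ω, rfl⟩
  simp only [c, dif_pos hg]
  exact (hb hg.choose).choose_spec.2 ω hω hs hg.choose_spec.symm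

/-- Markov for the conditional surprise -/
theorem nm_me_sur_markov (P : FLaw Ω) {α γ : Type} (X : Ω → α) (C : Ω → γ) {lam : ℝ} (hl : 0 < lam) :
    P.pr (fun ω => lam ≤ P.surC X C ω) ≤ P.entC X C / lam := by
  rw [ent_entC_eq_ev]
  exact ent_markov P (fun ω hω => ent_surC_nonneg P X C hω) hl

/-- `H(X | C) ≥ H(X | L) - H(V | L) - log N` if `(L, V)` reads `C` with lists of size `N` -/
theorem nm_me_chain3 (P : FLaw Ω) {α β γ δ : Type} (X : Ω → α) (V : Ω → β) (C : Ω → γ) (L : Ω → δ) {N : ℝ}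
    (h : P.NVal (fun _ => True) C (pair L V) N) : P.entC X L - P.entC V L - Real.log N ≤ P.entC X C := by
  -- `H(X | C) ≥ H(X | C, (L,V))`
  have h1 : P.entC X (pair C (pair L V)) ≤ P.entC X C :=
    ent_entC_anti P X (pair C (pair L V)) C fun ω ω' _ _ hh => congrArg Prod.fst hh
  -- chain rule for `(C, X)` given `(L,V)`
  have h2 := ent_entC_chain P C X (pair L V)
  have h3 := ent_entC_le_log_nval P C (pair L V) h
  have h4 : P.entC X (pair L V) ≤ P.entC (pair C X) (pair L V) :=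
    ent_entC_mono P (pair C X) X (pair L V) fun ω ω' _ _ hx _ => congrArg Prod.snd hx
  -- chain rule for `(V, X)` given `L`
  have h5 := ent_entC_chain P V X L
  have h6 : P.entC X L ≤ P.entC (pair V X) L :=
    ent_entC_mono P (pair V X) X L fun ω ω' _ _ hx _ => congrArg Prod.snd hx
  have h7 : P.entC X (pair V L) = P.entC X (pair L V) :=
    ent_entC_congr P X X (pair V L) (pair L V)
      (fun ω ω' _ _ => by simp only [FLaw.pair, Prod.mk.injEq]; exact and_comm) (fun ω ω' _ _ _ => Iff.rfl)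
  linarith

/-- lower bound of an ultralimit up to every `e > 0` -/
theorem nm_me_le_ulim (x : ℕ → ℝ) (c : ℝ) (hx : UBdd x) (h : ∀ e : ℝ, 0 < e → ∀ᶠ n in uf, c - e ≤ x n) : c ≤ ulim x := by
  refine le_of_forall_pos_le_add fun e he => ?_
  have := const_le_ulim x (c - e) hx (h e he)
  linarith

/-- upper bound of an ultralimit up to every `e > 0` -/
theorem nm_me_ulim_le (x : ℕ → ℝ) (c : ℝ) (hx : UBdd x) (h : ∀ e : ℝ, 0 < e → ∀ᶠ n in uf, x n ≤ c + e) : ulim x ≤ c := by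
  refine le_of_forall_pos_le_add fun e he => ?_
  exact ulim_le_const x (c + e) hx (h e he)

/-! ## powers of the scale -/

theorem nm_me_anti {s : ℝ} (h0 : 0 < s) (h1 : s < 1) {b b' : ℝ} (h : b ≤ b') : s ^ b' ≤ s ^ b :=
  Real.rpow_le_rpow_of_exponent_ge h0 h1.le h

/-- two powers with a common slack `θ`, `s^θ ≤ 1/2` -/
theorem nm_me_two {s : ℝ} (h0 : 0 < s) (h1 : s < 1) {a b c θ : ℝ} (hθ : s ^ θ ≤ 1 / 2) (ha : c + θ ≤ a) (hb : c + θ ≤ b) :
    s ^ a + s ^ b ≤ s ^ c := by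
  have hc : 0 < s ^ c := Real.rpow_pos_of_pos h0 _
  have e : s ^ (c + θ) ≤ s ^ c * (1 / 2) := by
    rw [Real.rpow_add h0]
    exact mul_le_mul_of_nonneg_left hθ hc.le
  have e1 := (nm_me_anti h0 h1 ha).trans e
  have e2 := (nm_me_anti h0 h1 hb).trans e
  linarith

/-- a constant is absorbed by a slack: `K s^a ≤ s^c` if `c + θ ≤ a`, `K s^θ ≤ 1` -/
theorem nm_me_abs {s : ℝ} (h0 : 0 < s) (h1 : s < 1) {a c θ K : ℝ} (hK : 0 ≤ K) (hθ : K * s ^ θ ≤ 1) (ha : c + θ ≤ a) :
    K * s ^ a ≤ s ^ c := by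
  have hc : 0 < s ^ c := Real.rpow_pos_of_pos h0 _
  calc K * s ^ a ≤ K * s ^ (c + θ) := mul_le_mul_of_nonneg_left (nm_me_anti h0 h1 ha) hK
    _ = s ^ c * (K * s ^ θ) := by rw [Real.rpow_add h0]; ring
    _ ≤ s ^ c * 1 := mul_le_mul_of_nonneg_left hθ hc.le
    _ = s ^ c := mul_one _

/-- **choice of the tolerance**: `t0 ≤ ε`, `t0 ≤ 1`, `K ≤ 1 / t0`, and `K s^ε ≤ 1` for all `s ≤ t0` -/
theorem nm_me_t0 (ε K : ℝ) (hε : 0 < ε) : ∃ t0 : ℝ, 0 < t0 ∧ t0 ≤ ε ∧ t0 ≤ 1 ∧ K ≤ 1 / t0 ∧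
    ∀ s : ℝ, 0 < s → s ≤ t0 → K * s ^ ε ≤ 1 := by
  set K' : ℝ := max K 1 with hK'
  have hK1 : 1 ≤ K' := le_max_right _ _
  have hK0 : 0 < K' := lt_of_lt_of_le one_pos hK1
  set a : ℝ := (1 / K') ^ (1 / ε) with ha
  have ha0 : 0 < a := Real.rpow_pos_of_pos (by positivity) _
  refine ⟨min (min ε (1 / K')) a, lt_min (lt_min hε (by positivity)) ha0, (min_le_left _ _).trans (min_le_left _ _), ?_, ?_, ?_⟩
  · refine ((min_le_left _ _).trans (min_le_right _ _)).trans ?_
    rw [div_le_one hK0]; exact hK1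
  · have h1 : min (min ε (1 / K')) a ≤ 1 / K' := (min_le_left _ _).trans (min_le_right _ _)
    have h2 : 0 < min (min ε (1 / K')) a := lt_min (lt_min hε (by positivity)) ha0
    have h3 : K' ≤ 1 / min (min ε (1 / K')) a := by
      rw [le_div_iff₀ h2]
      calc K' * min (min ε (1 / K')) a ≤ K' * (1 / K') := mul_le_mul_of_nonneg_left h1 hK0.le
        _ = 1 := by field_simp
    exact (le_max_left _ _).trans h3
  · intro s hs hst
    have h1 : s ≤ a := hst.trans (min_le_right _ _)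
    have h2 : s ^ ε ≤ a ^ ε := Real.rpow_le_rpow hs.le h1 hε.le
    have h3 : a ^ ε = 1 / K' := by
      rw [ha, ← Real.rpow_mul (by positivity), one_div_mul_cancel hε.ne', Real.rpow_one]
    rw [h3] at h2
    have h4 : 0 ≤ s ^ ε := Real.rpow_nonneg hs.le _
    calc K * s ^ ε ≤ K' * s ^ ε := mul_le_mul_of_nonneg_right (le_max_left _ _) h4
      _ ≤ K' * (1 / K') := mul_le_mul_of_nonneg_left h2 hK0.le
      _ = 1 := by field_simp

end

end Claimed.Agent.R256
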