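import Claimed.Agent.R256.Nm.Mem.Y5a
import Claimed.Agent.R256.Nm.Tra.Mix

/-!
# Row 256 (S0496), unit NM, block MEM, file 6: Y5, PROFILES II (right excess, prediction variants)      (architect helper198; prefix `nm_me_`)

* `nm_me_m_slab` : under the small right excess the increments of `U` dominate those of `R_j` (extra hypothesis `hP` = `nm_pred_right`).
* `nm_me_ats_sur`, `nm_me_ats_ent`, `nm_me_HP_HM` : the queries `[P]_x | (t_z, y_0)` in the language of `NmAt`.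
* `nm_me_flat_list` : flatness ⇒ lists of `[P]_x` given `(y_0, t_a)` of every exponent `> HP x a`, off an event of small probability.
* `nm_me_mr_gen` : the prediction variant of (mr) with the cost `Zc`;   `nm_me_mr_strong`, `nm_me_mr_weak`.
* `nm_me_HP_lip`, `nm_me_HP_incr` : the hypotheses of the mixed trace for `HP`.
-/

set_option autoImplicit false

namespace Claimed.Agent.R256

open Claimed.Agent.R255
open Claimed.Agent.R255.FLaw (pair)
open Filter Topology MeasureTheory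
open Classical

noncomputable section

variable {π : SfPar} {C0 : ℝ} {κ : ℝ → ℝ} (S : NmSeq π C0 κ)

theorem nm_me_De_le {q : NmQ} (hq : q.Fam π) : q.ds.De ≤ 1 := by
  obtain ⟨-, -, h⟩ := hq
  rcases h with ⟨-, -, h3, -⟩ | ⟨-, -, h3, -⟩ | ⟨-, -, -, De, -, h1, -, h3⟩
  · rw [h3]; exact le_of_eq rfl
  · rw [h3]; exact le_of_eq rfl
  · rw [h3]; exact h1

/-- **Y5** under the small right excess the increments of `U` dominate those of `R_j`.   `hP` = `nm_pred_right π hπ hc hb C0 1 (κ 1) q hq hg0` -/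
theorem nm_me_m_slab (hX : S.HasX) (hc : π.hyb = false) (q : NmQ) (hq : q.Fam π)
    (hP : ∃ lam0 : ℝ, 0 < lam0 ∧ ∀ a j v : ℝ, 0 < a → a < j → j ≤ q.ds.De → (q.ds.glob = true → j = q.ds.De) → π.u j ≤ v → v - π.u j ≤ lam0 * (j - a) →
      q.l π a v ≤ π.b1 j →
      NmA π C0 1 (κ 1) fun acc D => D.LabPr (D.gt j) (fun _ => True) (D.nm π q a v) (D.Xc v) (D.s ^ (-acc))) :
    ∃ lam0 : ℝ, 0 < lam0 ∧ ∀ a j v x : ℝ, 0 < a → a < j → j ≤ q.ds.De → (q.ds.glob = true → j = q.ds.De) → π.u j ≤ v → v - π.u j ≤ lam0 * (j - a) →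
      q.l π a v ≤ π.b1 j → v ≤ x → S.Rj j x - S.Rj j v ≤ S.U q x a v := by
  obtain ⟨lam0, hl0, hP⟩ := hP
  refine ⟨lam0, hl0, fun a j v x ha haj hjD hgl huv hvl hl _ => ?_⟩
  have hA := hP a j v ha haj hjD hgl huv hvl hl
  have hj1 : j ≤ 1 := hjD.trans (nm_me_De_le hq)
  have hgt : ∀ᶠ n in uf, j = 1 ∨ (S.D n).gt j < 1 := by
    rcases eq_or_lt_of_le hj1 with h | h
    · exact Eventually.of_forall fun _ => Or.inl h
    · filter_upwards [nm_me_gt_lt S ⟨(ha.trans haj).le, h⟩] with n hn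
      exact Or.inr hn
  refine nm_me_le_ulim _ _ (nm_me_ubdd_X S _ _) fun e he => ?_
  have hx := eventually_gt_of_lt_ulim _ (S.Rj j x - e / 3) (nm_me_ubdd_X S x (S.lab j)) (by
    show S.Rj j x - e / 3 < S.Rj j x
    linarith)
  have hv := eventually_lt_of_ulim_lt _ (S.Rj j v + e / 3) (nm_me_ubdd_X S v (S.lab j)) (by
    show S.Rj j v < S.Rj j v + e / 3
    linarith)
  filter_upwards [nm_me_uf S hX 1 one_pos _ hA (e / 3) (by positivity), hgt, hx, hv] with n hn hg hxn hvn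
  have hpos := nm_me_lgs_pos S n
  have hN : ((S.D n).P 1).NVal (fun _ => True) ((S.D n).nm π q a v) (pair ((S.D n).labAt j) ((S.D n).Xc v)) ((S.D n).s ^ (-(e / 3))) := by
    intro ω₀
    obtain ⟨T, hT, hm⟩ := hn ((S.D n).labAt j ω₀) ((S.D n).Xc v ω₀)
    refine ⟨T, hT, fun ω hω _ hp => hm ω ?_ trivial (congrArg Prod.snd hp)⟩
    have := nm_me_met (nm_me_core S n) hc hg hω
    rwa [show (S.D n).labAt j ω = (S.D n).labAt j ω₀ from congrArg Prod.fst hp] at this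
  have h3 := nm_me_chain3 ((S.D n).P 1) ((S.D n).Xc x) ((S.D n).Xc v) ((S.D n).nm π q a v) ((S.D n).labAt j) hN
  rw [nm_me_log_rpow _ (nm_me_s S n).1] at h3
  rw [le_div_iff₀ hpos]
  rw [lt_div_iff₀ hpos] at hxn
  rw [div_lt_iff₀ hpos] at hvn
  have e1 : S.lab j n = (S.D n).labAt j := rfl
  have e2 : S.Xc x n = (S.D n).Xc x := rfl
  have e3 : S.nm q a v n = (S.D n).nm π q a v := rfl
  rw [e1] at hxn hvn
  rw [e2, e3]
  nlinarith

/-! ## the queries of the derivative in the language of `NmAt` -/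

theorem nm_me_ats_P (D : SfDoc) (π : SfPar) (ds : NmDs) (x : ℝ) (ω ω' : D.Row 1) :
    D.ats π [NmAt.Pc ds x] ω = D.ats π [NmAt.Pc ds x] ω' ↔ D.Pc π ds x ω = D.Pc π ds x ω' := by
  simp [SfDoc.ats, SfDoc.atq]

theorem nm_me_ats_Y (D : SfDoc) (π : SfPar) (z : ℝ) (ω ω' : D.Row 1) :
    D.ats π [NmAt.tc z, NmAt.y0] ω = D.ats π [NmAt.tc z, NmAt.y0] ω' ↔ pair D.y0 (D.tc z) ω = pair D.y0 (D.tc z) ω' := by
  simp [SfDoc.ats, SfDoc.atq, FLaw.pair, and_comm]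

theorem nm_me_ats_sur (D : SfDoc) (π : SfPar) (ds : NmDs) (x z : ℝ) (ω : D.Row 1) :
    (D.P 1).surC (D.ats π [NmAt.Pc ds x]) (D.ats π [NmAt.tc z, NmAt.y0]) ω = (D.P 1).surC (D.Pc π ds x) (pair D.y0 (D.tc z)) ω :=
  ent_surC_congr _ _ _ _ _ ω (fun ω' _ => nm_me_ats_Y D π z ω' ω) (fun ω' _ _ => nm_me_ats_P D π ds x ω' ω)

theorem nm_me_ats_ent (D : SfDoc) (π : SfPar) (ds : NmDs) (x z : ℝ) :
    (D.P 1).entC (D.ats π [NmAt.Pc ds x]) (D.ats π [NmAt.tc z, NmAt.y0]) = (D.P 1).entC (D.Pc π ds x) (pair D.y0 (D.tc z)) :=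
  ent_entC_congr _ _ _ _ _ (fun ω ω' _ _ => nm_me_ats_Y D π z ω ω') (fun ω ω' _ _ _ => nm_me_ats_P D π ds x ω ω')

/-- (= `nm_HP_HM` of the contract) -/
theorem nm_me_HP_HM (ds : NmDs) (x z : ℝ) : S.HP ds x z = S.HM (NmAt.Pc ds) [NmAt.y0] x z := by
  unfold NmSeq.HP NmSeq.HM NmSeq.HC
  refine ulim_congr _ _ (Eventually.of_forall fun n => ?_)
  have := nm_me_ats_ent (S.D n) π ds x z
  show _ = ((S.D n).P 1).entC ((S.D n).ats π [NmAt.Pc ds x]) ((S.D n).ats π [NmAt.tc z, NmAt.y0]) / _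
  rw [this]
  rfl

/-- **flatness ⇒ lists** of every exponent above the profile -/
theorem nm_me_flat_list (Ds : Set ℝ) (h1 : (1 : ℝ) ∈ Ds) (hF : S.Flat Ds) (ds : NmDs) (hds : ds.Raw π) (x a lam : ℝ) (hl : S.HP ds x a < lam)
    (e : ℝ) (he : 0 < e) : ∀ᶠ n in uf, ∃ G : (S.D n).Row 1 → Prop, ((S.D n).P 1).pr (fun ω => ¬ G ω) ≤ e ∧
      ((S.D n).P 1).NVal G ((S.D n).Pc π ds x) (pair (S.D n).y0 ((S.D n).tc a)) ((S.D n).s ^ (-lam)) := by
  have hH := hF [NmAt.Pc ds x] [NmAt.tc a, NmAt.y0] (by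
      intro y hy
      rw [List.mem_singleton] at hy
      subst hy
      refine ⟨by simp, ?_⟩
      show ds.De ∈ Ds ∧ _
      rw [hds.1]
      exact ⟨h1, hds.2⟩) (by
      intro y hy
      simp only [List.mem_cons, List.not_mem_nil, or_false] at hy
      rcases hy with rfl | rfl <;> trivial)
  have hHC : S.HC (S.ats [NmAt.Pc ds x]) (S.ats [NmAt.tc a, NmAt.y0]) = S.HP ds x a := (nm_me_HP_HM S ds x a).symm
  have h2 := (hH (lam - S.HP ds x a) (by linarith)).eventually (Iio_mem_nhds he)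
  filter_upwards [h2] with n hn
  have hpos := nm_me_lgs_pos S n
  refine ⟨fun ω => ((S.D n).P 1).surC ((S.D n).Pc π ds x) (pair (S.D n).y0 ((S.D n).tc a)) ω ≤ lam * (S.D n).lgs, ?_, ?_⟩
  · refine le_trans (ent_pr_mono _ fun ω _ hω => ?_) (le_of_lt hn)
    rw [hHC]
    have e1 : ((S.D n).P 1).surC (S.ats [NmAt.Pc ds x] n) (S.ats [NmAt.tc a, NmAt.y0] n) ω
        = ((S.D n).P 1).surC ((S.D n).Pc π ds x) (pair (S.D n).y0 ((S.D n).tc a)) ω := nm_me_ats_sur (S.D n) π ds x a ω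
    rw [e1]
    rw [not_le] at hω
    have h3 : lam < ((S.D n).P 1).surC ((S.D n).Pc π ds x) (pair (S.D n).y0 ((S.D n).tc a)) ω / (S.D n).lgs := by
      rwa [lt_div_iff₀ hpos]
    exact lt_of_lt_of_le (by linarith) (le_abs_self _)
  · rw [nm_me_rpow_lgs _ (nm_me_s S n).1]
    exact ent_bin_count _ _ _ _ fun ω _ hω => hω

/-- **the prediction variant of (mr)** with the cost `Zc` of the list of the slope -/
theorem nm_me_mr_gen (hπ : π.Valid) (hX : S.HasX) (Ds : Set ℝ) (h1 : (1 : ℝ) ∈ Ds) (hF : S.Flat Ds) (hc : π.hyb = false) (hb : 0 < π.Cr)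
    (ds : NmDs) (hds : ds.Raw π) (j z Zc : ℝ) (hj : 0 < j ∧ j < 1) (hz : 0 < z ∧ z < π.LS * j) (hZ : 0 ≤ Zc)
    (hH : S.HP ds (π.b1 j) (j - z / π.LS) < Zc * (z / π.LS)) : (π.mnum π.LS - Zc) / π.LS * z ≤ S.Rj j (π.u j + z) := by
  refine nm_me_HC_lb S _ _ (nm_me_ubdd_X S _ _) _ fun e he => ?_
  have hacc : 0 < e / z := div_pos he hz.1
  filter_upwards [nm_me_uf S hX 1 one_pos _ (nm_me_mem_pred π hπ hc hb C0 1 (κ 1) ds hds j z Zc hj hz hZ) (e / z) hacc,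
    nm_me_flat_list S Ds h1 hF ds hds _ _ _ hH (e / 2) (by positivity),
    nm_me_pow_small S (a := e / 4) (e := e / 2) (by positivity) (by positivity)] with n hn hfl hsm cl hcl
  obtain ⟨G, hG1, hG2⟩ := hfl
  have e1 : ((π.mnum π.LS - Zc) / π.LS - e / z) * z = (π.mnum π.LS - Zc) / π.LS * z - e := by
    have := hz.1.ne'
    field_simp
  have e2 : e / z * z / 4 = e / 4 := by
    have := hz.1.ne'
    field_simp
  have h3 := hn G hG2 cl (fun g => by rw [e1]; exact hcl g)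
  rw [e2] at h3
  have h4 : ((S.D n).P 1).pr (fun ω => S.Xc (π.u j + z) n ω ∈ cl (S.lab j n ω))
      ≤ ((S.D n).P 1).pr (fun ω => (G ω ∧ (S.D n).Xc (π.u j + z) ω ∈ cl ((S.D n).labAt j ω)) ∨ ¬ G ω) :=
    ent_pr_mono _ fun ω _ hω => by
      by_cases hg : G ω
      · exact Or.inl ⟨hg, hω⟩
      · exact Or.inr hg
  have h5 := ent_pr_or_le ((S.D n).P 1) (fun ω => G ω ∧ (S.D n).Xc (π.u j + z) ω ∈ cl ((S.D n).labAt j ω)) (fun ω => ¬ G ω)
  refine h4.trans (h5.trans ?_)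
  linarith

/-- **Y5** (i): strict extra prediction persisting to the left -/
theorem nm_me_mr_strong (hπ : π.Valid) (hX : S.HasX) (Ds : Set ℝ) (h1 : (1 : ℝ) ∈ Ds) (hF : S.Flat Ds) (hc : π.hyb = false) (hb : 0 < π.Cr) (ds : NmDs) (hds : ds.Raw π)
    (j σ ρ : ℝ) (hj : 0 < j ∧ j < 1) (hσ : 0 < σ) (hρ : 0 < ρ) (hs : ∀ i : ℝ, j - ρ < i → i ≤ j → π.b1 j + σ ≤ S.pst ds i) :
    ∀ z : ℝ, 0 < z → z < π.LS * ρ → z < π.LS * j → π.mu π.LS * z ≤ S.Rj j (π.u j + z) := by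
  intro z hz0 hzρ hzj
  have hL : 0 < π.LS := lt_of_lt_of_le one_pos (nm_me_Lraw π).2
  have hzL : 0 < z / π.LS := div_pos hz0 hL
  have hi1 : j - ρ < j - z / π.LS := by
    have : z / π.LS < ρ := by rw [div_lt_iff₀ hL]; linarith
    linarith
  have h0 : S.HP ds (π.b1 j) (j - z / π.LS) = 0 :=
    nm_me_HP_below S hX ds hds.1 (lt_of_lt_of_le (by linarith) (hs _ hi1 (by linarith)))
  refine le_of_forall_pos_le_add fun e he => ?_
  -- cost `Zc = e LS / z`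
  have hZ : 0 < e * π.LS / z := by positivity
  have h2 := nm_me_mr_gen S hπ hX Ds h1 hF hc hb ds hds j z (e * π.LS / z) hj ⟨hz0, hzj⟩ hZ.le (by rw [h0]; positivity)
  have e1 : (π.mnum π.LS - e * π.LS / z) / π.LS * z = π.mu π.LS * z - e := by
    unfold SfPar.mu
    have := hz0.ne'
    have := hL.ne'
    field_simp
  rw [e1] at h2
  linarith

/-! ## the hypotheses of the mixed trace -/

/-- finite scale: the increment of the entropy of nested cells is a conditional entropy -/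
theorem nm_me_HP_lip_chain {Ω : Type} [Fintype Ω] {β : Type} (P : FLaw Ω) (v : Ω → ℝ) (Y : Ω → β) {s : ℝ} (h0 : 0 < s) (h1 : s < 1) {x x' : ℝ} (h : x ≤ x') :
    P.entC (fun ω => nmCell s x' (v ω)) Y = P.entC (fun ω => nmCell s x (v ω)) Y
      + P.entC (fun ω => nmCell s x' (v ω)) (pair (fun ω => nmCell s x (v ω)) Y) := by
  rw [← ent_entC_chain]
  refine ent_entC_congr _ _ _ _ _ (fun _ _ _ _ => Iff.rfl) fun ω ω' _ _ _ => ?_
  constructor
  · intro hx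
    exact Prod.ext (nm_cell_nest h0 h1 h hx) hx
  · intro hx
    exact congrArg Prod.snd hx

/-- finite scale: a cell of depth `x` contains at most `7 s^(-(x'-x))` cells of depth `x'` -/
theorem nm_me_HP_lip_fin {Ω : Type} [Fintype Ω] {β : Type} (P : FLaw Ω) (v : Ω → ℝ) (Y : Ω → β) {s : ℝ} (h0 : 0 < s) (h1 : s < 1) {x x' : ℝ} (h : x ≤ x') :
    P.entC (fun ω => nmCell s x' (v ω)) (pair (fun ω => nmCell s x (v ω)) Y) ≤ Real.log 7 + (x' - x) * lg s := by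
  have hN := nm_me_nval_close P (fun _ => True) (pair (fun ω => nmCell s x (v ω)) Y) v h0 h1 x x' (K := 1) zero_le_one
    (fun ω ω' _ _ _ _ hA => by
      rw [one_mul]
      exact nm_close_of_cell h0 h1 (congrArg Prod.fst hA))
  refine (ent_entC_le_log_nval _ _ _ hN).trans ?_
  have hp : 0 < s ^ (-(x' - x)) := Real.rpow_pos_of_pos h0 _
  have h1' : (1 : ℝ) ≤ s ^ (-(x' - x)) := Real.one_le_rpow_of_pos_of_le_one_of_nonpos h0 h1.le (by linarith)
  calc Real.log (4 * 1 * s ^ (-(x' - x)) + 3) ≤ Real.log (7 * s ^ (-(x' - x))) := Real.log_le_log (by positivity) (by linarith)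
    _ = Real.log 7 + Real.log (s ^ (-(x' - x))) := Real.log_mul (by norm_num) hp.ne'
    _ = _ := by
        rw [Real.log_rpow h0]
        unfold lg
        rw [one_div, Real.log_inv]; ring

/-- `HP` is `1`-Lipschitz in the depth.   (a cell of depth `x` contains `≤ 2 s^(-(x'-x))` cells of depth `x'`: `nm_me_nval_close`, chain rule, `nm_me_ulim_le`) -/
theorem nm_me_HP_lip (ds : NmDs) (hDe : ds.De = 1) (z : ℝ) {x x' : ℝ} (h : x ≤ x') : S.HP ds x' z - S.HP ds x z ≤ x' - x := by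
  unfold NmSeq.HP NmSeq.HC
  rw [← ulim_sub _ _ (nm_me_ubdd_P S ds hDe x' _) (nm_me_ubdd_P S ds hDe x _)]
  refine nm_me_ulim_le _ _ ((nm_me_ubdd_P S ds hDe x' _).sub (nm_me_ubdd_P S ds hDe x _)) fun e he => ?_
  filter_upwards [nm_me_lgs_top S (Real.log 7 / e)] with n hn
  obtain ⟨h0, h1⟩ := nm_me_s S n
  have hpos := nm_me_lgs_pos S n
  have hc := nm_me_HP_lip_chain ((S.D n).P 1) (fun ω => ((S.D n).raw π ds ω).P) (S.pr2 S.y0 (S.tc z) n) h0 h1 h
  have hf := nm_me_HP_lip_fin ((S.D n).P 1) (fun ω => ((S.D n).raw π ds ω).P) (S.pr2 S.y0 (S.tc z) n) h0 h1 h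
  have e1 : (S.D n).Pc π ds x' = fun ω => nmCell (S.D n).s x' ((S.D n).raw π ds ω).P := rfl
  have e2 : (S.D n).Pc π ds x = fun ω => nmCell (S.D n).s x ((S.D n).raw π ds ω).P := rfl
  have e3 : lg (S.D n).s = (S.D n).lgs := rfl
  rw [e1, e2, ← sub_div, div_le_iff₀ hpos, hc]
  rw [e3] at hf
  rw [div_le_iff₀ he] at hn
  nlinarith

/-- the increments of `HP` in the depth decrease with the time depth.   (`H(P_x' | Y) - H(P_x | Y) = H(P_x' | P_x, Y)` since `P_x` is a function of `P_x'`; `ent_entC_anti`; `ulim_sub`, `ulim_le`) -/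
theorem nm_me_HP_incr (ds : NmDs) (hDe : ds.De = 1) {z z' x x' : ℝ} (hz : z ≤ z') (hx : x ≤ x') :
    S.HP ds x' z' - S.HP ds x z' ≤ S.HP ds x' z - S.HP ds x z := by
  unfold NmSeq.HP NmSeq.HC
  rw [← ulim_sub _ _ (nm_me_ubdd_P S ds hDe x' _) (nm_me_ubdd_P S ds hDe x _), ← ulim_sub _ _ (nm_me_ubdd_P S ds hDe x' _) (nm_me_ubdd_P S ds hDe x _)]
  refine ulim_le _ _ ((nm_me_ubdd_P S ds hDe x' _).sub (nm_me_ubdd_P S ds hDe x _)) ((nm_me_ubdd_P S ds hDe x' _).sub (nm_me_ubdd_P S ds hDe x _))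
    (Eventually.of_forall fun n => ?_)
  obtain ⟨h0, h1⟩ := nm_me_s S n
  have hpos := nm_me_lgs_pos S n
  have hc := nm_me_HP_lip_chain ((S.D n).P 1) (fun ω => ((S.D n).raw π ds ω).P) (S.pr2 S.y0 (S.tc z) n) h0 h1 hx
  have hc' := nm_me_HP_lip_chain ((S.D n).P 1) (fun ω => ((S.D n).raw π ds ω).P) (S.pr2 S.y0 (S.tc z') n) h0 h1 hx
  have e1 : (S.D n).Pc π ds x' = fun ω => nmCell (S.D n).s x' ((S.D n).raw π ds ω).P := rfl
  have e2 : (S.D n).Pc π ds x = fun ω => nmCell (S.D n).s x ((S.D n).raw π ds ω).P := rfl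
  rw [e1, e2, ← sub_div, ← sub_div, hc, hc', add_sub_cancel_left, add_sub_cancel_left]
  refine div_le_div_of_nonneg_right ?_ hpos.le
  refine ent_entC_anti _ _ _ _ fun ω ω' _ _ hh => ?_
  have h1' : nmCell (S.D n).s x ((S.D n).raw π ds ω).P = nmCell (S.D n).s x ((S.D n).raw π ds ω').P := congrArg Prod.fst hh
  have h2' : S.pr2 S.y0 (S.tc z') n ω = S.pr2 S.y0 (S.tc z') n ω' := congrArg Prod.snd hh
  have h3 : (S.D n).y0 ω = (S.D n).y0 ω' := congrArg Prod.fst h2'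
  have h4 : (S.D n).tc z' ω = (S.D n).tc z' ω' := congrArg Prod.snd h2'
  exact Prod.ext h1' (Prod.ext h3 (nm_cell_nest h0 h1 hz h4))

/-- **Y5** (ii): `Q ≤ 1`, `0 < C_rate < 1` : the additional lower slope `k_0 + 2Γ - C_rate ν(j)` at almost every `j` -/
theorem nm_me_mr_weak (hπ : π.Valid) (hX : S.HasX) (Ds : Set ℝ) (h1 : (1 : ℝ) ∈ Ds) (hF : S.Flat Ds) (hc : π.hyb = false) (hQ : π.Qm ≤ 1) (hb : 0 < π.Cr ∧ π.Cr < 1)
    (ds : NmDs) (hds : ds.Raw π) : ∀ᵐ j : ℝ, 0 < j → j < 1 → ∀ e : ℝ, 0 < e → ∀ᶠ z in 𝓝[>] (0 : ℝ),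
      (1 - π.d + 2 * π.Γ - π.Cr * nmNu (S.HP ds) π.b1 j - e) * z ≤ S.Rj j (π.u j + z) := by
  have hLS : π.LS = 1 := by
    unfold SfPar.LS
    exact max_eq_left (by linarith)
  have hmn : π.mnum π.LS = 1 - π.d + 2 * π.Γ := by
    rw [hLS]; unfold SfPar.mnum; ring
  have hb1 : ∀ a : ℝ, π.b1 a = -π.Cr + π.Cr * a := fun a => by
    unfold SfPar.b1 SfPar.Cr; ring
  filter_upwards [nm_mix_main (S.HP ds) 0 1 (-π.Cr) π.Cr hb.1
    (fun z _ x x' h => ⟨by linarith [nm_me_HP_mono S ds hds.1 z h], nm_me_HP_lip S ds hds.1 z h⟩)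
    (fun z _ z' _ x x' hz hx => nm_me_HP_incr S ds hds.1 hz hx)] with j hj hj0 hj1 e he
  obtain ⟨hν0, hν1, -, hT⟩ := hj ⟨hj0, hj1⟩
  set ν : ℝ := nmNu (S.HP ds) π.b1 j with hν
  have hνe : ν = limsup (fun h : ℝ => (S.HP ds (-π.Cr + π.Cr * j + h) j - S.HP ds (-π.Cr + π.Cr * j) j) / h) (𝓝[>] 0) := by
    rw [hν]; unfold nmNu; rw [hb1 j]
  rw [← hνe] at hν1 hT
  have hνn : 0 ≤ ν := hν0.trans hν1
  have hT' := hT (-π.Cr) 0 (-1) (by linarith)
  have e1 : min (0 : ℝ) (π.Cr * -1) - min (-π.Cr) (π.Cr * -1) = 0 := by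
    rw [mul_neg_one, min_self, min_eq_right (by linarith)]; ring
  have e2 : max (0 : ℝ) (π.Cr * -1) - max (-π.Cr) (π.Cr * -1) = π.Cr := by
    rw [mul_neg_one, max_self, max_eq_left (by linarith)]; ring
  rw [e1, e2, mul_zero, zero_add] at hT'
  have hlt := hT'.eventually (Iio_mem_nhds (show ν * π.Cr < ν * π.Cr + e by linarith))
  have hsm : ∀ᶠ z in 𝓝[>] (0 : ℝ), z < j := by
    have : Set.Iio j ∈ 𝓝 (0 : ℝ) := Iio_mem_nhds hj0
    exact mem_nhdsWithin_of_mem_nhds this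
  filter_upwards [hlt, hsm, self_mem_nhdsWithin] with z hz hzj hz0
  have hz0' : 0 < z := hz0
  have hg : S.HP ds (-π.Cr + π.Cr * j + -π.Cr * z) (j + -1 * z) = 0 := by
    have := nm_me_HP_graph S hπ hX hc hb.1 ds hds (j - z) ⟨by linarith, by linarith⟩
    rw [hb1] at this
    rw [← this]
    congr 1 <;> ring
  have hz' : (S.HP ds (-π.Cr + π.Cr * j + 0 * z) (j + -1 * z) - S.HP ds (-π.Cr + π.Cr * j + -π.Cr * z) (j + -1 * z)) / z < ν * π.Cr + e := hz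
  rw [hg, sub_zero, div_lt_iff₀ hz0'] at hz'
  have h2 := nm_me_mr_gen S hπ hX Ds h1 hF hc hb.1 ds hds j z (π.Cr * ν + e) ⟨hj0, hj1⟩ ⟨hz0', by rw [hLS]; linarith⟩
    (by have := mul_nonneg hb.1.le hνn; linarith) (by
      rw [hLS, div_one, hb1]
      have e3 : S.HP ds (-π.Cr + π.Cr * j) (j - z) = S.HP ds (-π.Cr + π.Cr * j + 0 * z) (j + -1 * z) := by
        congr 1 <;> ring
      rw [e3]
      linarith)
  rw [hmn, hLS, div_one] at h2
  linarith

end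

end Claimed.Agent.R256
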