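import Claimed.Agent.R256.Nm.Mem.Abs
import Claimed.Agent.R256.Nm.Base
import Claimed.Agent.R256.Soft.Mono

/-!
# Row 256 (S0496), unit NM, block MEM, file 2: SEQUENCES      (architect helper198; prefix `nm_me_`)

Lies BELOW `Nm/Contract.lean` (imports `Nm/Base`, `Soft/Mono`).
* `nm_me_fine_mono`, `nm_me_x_mono` : `D.Fine`, `nmX` are monotone in the tolerance.
* `nm_me_uf` (= `nm_A_uf` of `Nm/Grid.lean`, verbatim): TYPE A statements hold for `uf`-most configurations of a sequence.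
* `nm_me_s`, `nm_me_lgs_pos`, `nm_me_lgs_top`, `nm_me_s_small` : the scale along a sequence.
* `nm_me_ent_cell` : entropy of a cell of a polynomially bounded real;  `nm_me_ubdd` : `H(cell | anything) / log(1/s)` is bounded along the sequence.
* `nm_me_HC_nonneg`, `nm_me_HC_zero`, `nm_me_HC_lb` : profiles from finite-scale statements.
-/

set_option autoImplicit false

namespace Claimed.Agent.R256

open Claimed.Agent.R255
open Claimed.Agent.R255.FLaw (pair)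
open Filter Topology
open Classical

noncomputable section

/-! ## monotonicity in the tolerance -/

theorem nm_me_aff_mono {D : SfDoc} {π : SfPar} {τ κ0 t t' : ℝ} (hs : 0 < D.s ∧ D.s < 1) (ht : 0 < t) (htt : t ≤ t')
    (h : D.Aff π τ κ0 t) : D.Aff π τ κ0 t' := by
  have hP : D.AffP π t := ⟨h.hr, h.hf, h.cmpA, h.cmpB, h.eqK, h.stK, h.linP⟩
  refine SfDoc.sf_aff_of D π τ κ0 t' (sf_affp_mono D π t t' hs htt hP) ?_
    (fun hh => sf_spg_mono D π τ τ κ0 κ0 t t' hs ht htt le_rfl le_rfl (h.spg hh))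
  intro i hi j hj hij htk ι _ Sb Ub sg a1 a2 a3 a4 a5 a6 a7
  refine h.mincost i hi j hj hij (htt.trans htk) ι Sb Ub sg a1 a2 a3 a4 (fun b => (a5 b).trans ?_) a6 a7
  have h1 : 1 / t' ≤ 1 / t := one_div_le_one_div_of_le ht htt
  exact sf_mono_aux_le hs (by linarith)

theorem nm_me_fine_mono {D : SfDoc} {π : SfPar} {C0 τ κ0 t t' : ℝ} (h : D.Fine π C0 τ κ0 t) (htt : t ≤ t') :
    D.Fine π C0 τ κ0 t' := by
  refine ⟨lt_of_lt_of_le h.pos htt, ⟨sf_mono_aux_core D π C0 t t' h.pos htt h.ok.core,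
    nm_me_aff_mono h.ok.core.hs h.pos htt h.ok.aff⟩, h.sm.trans htt, fun a h0 h1 => ?_⟩
  obtain ⟨i, hi, hia⟩ := h.mesh a h0 h1
  exact ⟨i, hi, hia.trans htt⟩

theorem nm_me_x_mono {D : SfDoc} {π : SfPar} {t t' : ℝ} (hs : 0 < D.s ∧ D.s < 1) (htt : t ≤ t') (h : nmX π D t) : nmX π D t' := by
  have hneg : D.s ^ (-t) ≤ D.s ^ (-t') := sf_mono_aux_le hs (by linarith)
  have hpos : ∀ x : ℝ, 0 < D.s ^ x := fun x => Real.rpow_pos_of_pos hs.1 x
  refine ⟨?_, ?_⟩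
  · intro i hi j hj h0 hij R c hc
    exact (h.1 i hi j hj h0 hij R c hc).trans (mul_le_mul_of_nonneg_right hneg (hpos _).le)
  · intro hh i hi j hj h0 hij R Z c gs hc hg
    exact (h.2 hh i hi j hj h0 hij R Z c gs hc hg).trans (mul_le_mul_of_nonneg_right hneg (hpos _).le)

section seq

variable {π : SfPar} {C0 : ℝ} {κ : ℝ → ℝ} (S : NmSeq π C0 κ)

/-- the tolerance is eventually small -/
theorem nm_me_t_small (t0 : ℝ) (h0 : 0 < t0) : ∀ᶠ n in uf, S.t n ≤ t0 := by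
  have := S.lim.eventually (Iio_mem_nhds h0)
  filter_upwards [this] with n hn
  exact le_of_lt hn

/-- **TYPE A statements hold for `uf`-most configurations of a sequence** (= `nm_A_uf`) -/
theorem nm_me_uf (hX : S.HasX) (τ : ℝ) (hτ : 0 < τ) (Φ : ℝ → SfDoc → Prop) (h : NmA π C0 τ (κ τ) Φ)
    (acc : ℝ) (hacc : 0 < acc) : ∀ᶠ n in uf, Φ acc (S.D n) := by
  obtain ⟨t0, h0, ht0⟩ := h acc hacc
  filter_upwards [nm_me_t_small S t0 h0] with n hn
  exact ht0 (S.D n) (nm_me_fine_mono (S.fine n τ hτ) hn) (nm_me_x_mono (S.fine n τ hτ).ok.core.hs hn (hX n))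

/-- fine at every fixed tolerance, eventually -/
theorem nm_me_fine_ev (τ : ℝ) (hτ : 0 < τ) (t0 : ℝ) (h0 : 0 < t0) : ∀ᶠ n in uf, (S.D n).Fine π C0 τ (κ τ) t0 := by
  filter_upwards [nm_me_t_small S t0 h0] with n hn
  exact nm_me_fine_mono (S.fine n τ hτ) hn

theorem nm_me_s (n : ℕ) : 0 < (S.D n).s ∧ (S.D n).s < 1 := (S.fine n 1 one_pos).ok.core.hs

theorem nm_me_lgs_pos (n : ℕ) : 0 < (S.D n).lgs := by
  obtain ⟨h0, h1⟩ := nm_me_s S n
  unfold SfDoc.lgs lg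
  apply Real.log_pos
  rw [lt_div_iff₀ h0]; linarith

theorem nm_me_s_small (t0 : ℝ) (h0 : 0 < t0) : ∀ᶠ n in uf, (S.D n).s ≤ t0 := by
  filter_upwards [nm_me_t_small S t0 h0] with n hn
  exact (S.fine n 1 one_pos).sm.trans hn

/-- `log (1/s) → ∞` -/
theorem nm_me_lgs_top (K : ℝ) : ∀ᶠ n in uf, K ≤ (S.D n).lgs := by
  filter_upwards [nm_me_s_small S (Real.exp (-K)) (Real.exp_pos _)] with n hn
  obtain ⟨h0, -⟩ := nm_me_s S n
  unfold SfDoc.lgs lg
  rw [one_div, Real.log_inv]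
  have := Real.log_le_log h0 hn
  rw [Real.log_exp] at this
  linarith

end seq

/-- `s^(-e) = exp (e log (1/s))` -/
theorem nm_me_rpow_lgs (D : SfDoc) (h0 : 0 < D.s) (e : ℝ) : D.s ^ (-e) = Real.exp (e * D.lgs) := by
  unfold SfDoc.lgs lg
  rw [Real.rpow_def_of_pos h0, one_div, Real.log_inv]
  congr 1; ring

theorem nm_me_log_rpow (D : SfDoc) (h0 : 0 < D.s) (e : ℝ) : Real.log (D.s ^ (-e)) = e * D.lgs := by
  rw [nm_me_rpow_lgs D h0, Real.log_exp]

/-! ## cells of polynomially bounded reals -/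

/-- integers within `K` of a centre -/
theorem nm_me_int_ball (n0 : ℤ) (K : ℝ) (hK : 0 ≤ K) : ∃ S : Finset ℤ, (S.card : ℝ) ≤ 2 * K + 1 ∧
    ∀ n : ℤ, |((n - n0 : ℤ) : ℝ)| ≤ K → n ∈ S := by
  refine ⟨Finset.Icc (n0 - ⌊K⌋) (n0 + ⌊K⌋), ?_, fun n hn => ?_⟩
  · rw [Int.card_Icc]
    have h5 : (0 : ℤ) ≤ ⌊K⌋ := Int.floor_nonneg.mpr hK
    have h4 : (n0 + ⌊K⌋ + 1 - (n0 - ⌊K⌋)).toNat = (2 * ⌊K⌋ + 1).toNat := by congr 1; ring
    rw [h4]
    have h6 : (((2 * ⌊K⌋ + 1).toNat : ℕ) : ℝ) = 2 * (⌊K⌋ : ℝ) + 1 := by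
      have : (((2 * ⌊K⌋ + 1).toNat : ℕ) : ℤ) = 2 * ⌊K⌋ + 1 := Int.toNat_of_nonneg (by linarith)
      exact_mod_cast this
    rw [h6]
    linarith [Int.floor_le K]
  · rw [abs_le] at hn
    rw [Finset.mem_Icc]
    have h1 : n - n0 ≤ ⌊K⌋ := Int.le_floor.mpr hn.2
    have h2 : n0 - n ≤ ⌊K⌋ := Int.le_floor.mpr (by push_cast at hn ⊢; linarith [hn.1])
    constructor <;> linarith

/-- metric reading at a real depth: if `A` fixes the real `v` within `K s^b` on `G`, it reads the cell of depth `b'` up to `4 K s^(-(b'-b)) + 3` values -/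
theorem nm_me_nval_close {Ω : Type} [Fintype Ω] {α : Type} (P : FLaw Ω) (G : Ω → Prop) (A : Ω → α) (v : Ω → ℝ) {s : ℝ} (h0 : 0 < s) (h1 : s < 1)
    (b b' : ℝ) {K : ℝ} (hK : 0 ≤ K)
    (h : ∀ ω ω', P.p ω ≠ 0 → P.p ω' ≠ 0 → G ω → G ω' → A ω = A ω' → |v ω - v ω'| ≤ K * s ^ b) :
    P.NVal G (fun ω => nmCell s b' (v ω)) A (4 * K * s ^ (-(b' - b)) + 3) := by
  intro ω₀
  have hp : 0 ≤ 2 * K * s ^ (-(b' - b)) + 1 := by
    have := Real.rpow_nonneg h0.le (-(b' - b))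
    positivity
  by_cases hex : ∃ ω, P.p ω ≠ 0 ∧ G ω ∧ A ω = A ω₀
  · obtain ⟨ω₁, hp₁, hG₁, hA₁⟩ := hex
    obtain ⟨S, hS, hmem⟩ := nm_me_int_ball (nmCell s b' (v ω₁)) _ hp
    refine ⟨S, hS.trans (le_of_eq (by ring)), fun ω hω hG hA => hmem _ ?_⟩
    exact nm_cell_close h0 h1 b b' (h ω ω₁ hω hp₁ hG hG₁ (hA.trans hA₁.symm))
  · refine ⟨∅, ?_, fun ω hω hG hA => absurd ⟨ω, hω, hG, hA⟩ hex⟩
    rw [Finset.card_empty, Nat.cast_zero]
    have := Real.rpow_nonneg h0.le (-(b' - b))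
    positivity

/-- entropy of a cell of a polynomially bounded real -/
theorem nm_me_ent_cell {Ω : Type} [Fintype Ω] (P : FLaw Ω) (v : Ω → ℝ) {s : ℝ} (h0 : 0 < s) (h1 : s < 1) (x C K : ℝ) (hK : 0 ≤ K)
    (h : ∀ ω, P.p ω ≠ 0 → |v ω| ≤ K * s ^ (-C)) :
    P.ent (fun ω => nmCell s x (v ω)) ≤ Real.log (4 * K + 3) + max (x + C) 0 * lg s := by
  have hp : 0 ≤ 2 * K * s ^ (-(x - -C)) + 1 := by
    have := Real.rpow_nonneg h0.le (-(x - -C))
    positivity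
  obtain ⟨S, hS, hmem⟩ := nm_me_int_ball (nmCell s x 0) _ hp
  have hsup : ∀ ω, P.p ω ≠ 0 → nmCell s x (v ω) ∈ S := fun ω hω =>
    hmem _ (nm_cell_close h0 h1 (-C) x (by rw [sub_zero]; exact h ω hω))
  have h2 := ent_le_log_card P (fun ω => nmCell s x (v ω)) S hsup
  obtain ⟨ω₀, hω₀⟩ := ent_exists_supp P
  have hcard : (1 : ℝ) ≤ (S.card : ℝ) := by
    have : 0 < S.card := Finset.card_pos.2 ⟨_, hsup ω₀ hω₀⟩
    exact_mod_cast this
  refine h2.trans ?_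
  set m : ℝ := max (x + C) 0 with hm
  have hle : (S.card : ℝ) ≤ (4 * K + 3) * s ^ (-m) := by
    have e1 : s ^ (-(x - -C)) ≤ s ^ (-m) := nm_me_anti h0 h1 (by have := le_max_left (x + C) 0; linarith)
    have e2 : (1 : ℝ) ≤ s ^ (-m) :=
      Real.one_le_rpow_of_pos_of_le_one_of_nonpos h0 h1.le (by have := le_max_right (x + C) 0; linarith)
    calc (S.card : ℝ) ≤ 2 * (2 * K * s ^ (-(x - -C)) + 1) + 1 := hS
      _ ≤ 2 * (2 * K * s ^ (-m) + s ^ (-m)) + s ^ (-m) := by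
          have := mul_le_mul_of_nonneg_left e1 (by positivity : 0 ≤ 2 * K)
          linarith
      _ = _ := by ring
  have hpos : 0 < s ^ (-m) := Real.rpow_pos_of_pos h0 _
  calc Real.log (S.card : ℝ) ≤ Real.log ((4 * K + 3) * s ^ (-m)) := Real.log_le_log (by linarith) hle
    _ = Real.log (4 * K + 3) + Real.log (s ^ (-m)) := Real.log_mul (by positivity) hpos.ne'
    _ = _ := by
        rw [Real.log_rpow h0]
        unfold lg
        rw [one_div, Real.log_inv]; ring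

section prof

variable {π : SfPar} {C0 : ℝ} {κ : ℝ → ℝ} (S : NmSeq π C0 κ)

/-- `H(cell | anything) / log (1/s)` is bounded along the sequence -/
theorem nm_me_ubdd {β : ℕ → Type} (v : ∀ n, (S.D n).Row 1 → ℝ) (x C K : ℝ) (hK : 0 ≤ K)
    (h : ∀ᶠ n in uf, ∀ ω, ((S.D n).P 1).p ω ≠ 0 → |v n ω| ≤ K * (S.D n).s ^ (-C)) (Y : S.Obs β) :
    UBdd fun n => ((S.D n).P 1).entC (fun ω => nmCell (S.D n).s x (v n ω)) (Y n) / (S.D n).lgs := by
  refine UBdd.of_le 0 (Real.log (4 * K + 3) + max (x + C) 0) ?_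
  filter_upwards [h, nm_me_lgs_top S 1] with n hn hl
  obtain ⟨h0, h1⟩ := nm_me_s S n
  have hpos := nm_me_lgs_pos S n
  refine ⟨div_nonneg (ent_entC_nonneg _ _ _) hpos.le, ?_⟩
  rw [div_le_iff₀ hpos]
  refine (ent_entC_le _ _ _).trans ((nm_me_ent_cell _ (v n) h0 h1 x C K hK hn).trans ?_)
  have hlog : 0 ≤ Real.log (4 * K + 3) := Real.log_nonneg (by linarith)
  have e : lg (S.D n).s = (S.D n).lgs := rfl
  rw [e, add_mul]
  have := mul_le_mul_of_nonneg_left hl hlog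
  linarith

/-- a bounded profile is nonnegative -/
theorem nm_me_HC_nonneg {α β : ℕ → Type} (X : S.Obs α) (Y : S.Obs β)
    (hb : UBdd fun n => ((S.D n).P 1).entC (X n) (Y n) / (S.D n).lgs) : 0 ≤ S.HC X Y :=
  const_le_ulim _ 0 hb (Eventually.of_forall fun n => div_nonneg (ent_entC_nonneg _ _ _) (nm_me_lgs_pos S n).le)

/-- lists of arbitrarily small exponent: the profile vanishes -/
theorem nm_me_HC_zero {α β : ℕ → Type} (X : S.Obs α) (Y : S.Obs β)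
    (h : ∀ e : ℝ, 0 < e → ∀ᶠ n in uf, ((S.D n).P 1).NVal (fun _ => True) (X n) (Y n) ((S.D n).s ^ (-e))) : S.HC X Y = 0 := by
  have hle : ∀ e : ℝ, 0 < e → ∀ᶠ n in uf, ((S.D n).P 1).entC (X n) (Y n) / (S.D n).lgs ≤ e := by
    intro e he
    filter_upwards [h e he] with n hn
    rw [div_le_iff₀ (nm_me_lgs_pos S n), ← nm_me_log_rpow _ (nm_me_s S n).1]
    exact ent_entC_le_log_nval _ _ _ hn
  have hb : UBdd fun n => ((S.D n).P 1).entC (X n) (Y n) / (S.D n).lgs := by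
    refine UBdd.of_le 0 1 ?_
    filter_upwards [hle 1 one_pos] with n hn
    exact ⟨div_nonneg (ent_entC_nonneg _ _ _) (nm_me_lgs_pos S n).le, hn⟩
  refine le_antisymm ?_ (nm_me_HC_nonneg S X Y hb)
  refine nm_me_ulim_le _ 0 hb fun e he => ?_
  filter_upwards [hle e he] with n hn
  linarith

/-- **profile lower bound from rarity of lists** -/
theorem nm_me_HC_lb {α β : ℕ → Type} (X : S.Obs α) (Y : S.Obs β)
    (hb : UBdd fun n => ((S.D n).P 1).entC (X n) (Y n) / (S.D n).lgs) (c : ℝ)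
    (h : ∀ e : ℝ, 0 < e → ∀ᶠ n in uf, ∀ cl : β n → Finset (α n), (∀ g, ((cl g).card : ℝ) ≤ (S.D n).s ^ (-(c - e))) →
      ((S.D n).P 1).pr (fun ω => X n ω ∈ cl (Y n ω)) ≤ e) : c ≤ S.HC X Y := by
  rcases le_or_gt c 0 with hc | hc
  · exact hc.trans (nm_me_HC_nonneg S X Y hb)
  refine nm_me_le_ulim _ c hb fun e he => ?_
  -- use the hypothesis with `e' = min (e / (1 + c)) c / 2`
  set e' : ℝ := min (e / (2 * (1 + c))) (c / 2) with he'
  have he'0 : 0 < e' := lt_min (by positivity) (by positivity)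
  have h1 : e' ≤ e / (2 * (1 + c)) := min_le_left _ _
  have h2 : e' ≤ c / 2 := min_le_right _ _
  filter_upwards [h e' he'0] with n hn
  obtain ⟨h0, hs1⟩ := nm_me_s S n
  have hpos := nm_me_lgs_pos S n
  have hN : (1 : ℝ) ≤ (S.D n).s ^ (-(c - e')) :=
    Real.one_le_rpow_of_pos_of_le_one_of_nonpos h0 hs1.le (by linarith)
  have h3 := nm_me_ent_lb ((S.D n).P 1) (X n) (Y n) hN hn
  rw [nm_me_log_rpow _ h0] at h3
  rw [le_div_iff₀ hpos]
  refine le_trans ?_ h3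
  have h4 : c - e ≤ (c - e') * (1 - e') := by
    have h5 : e' * (2 * (1 + c)) ≤ e := by rwa [le_div_iff₀ (by positivity)] at h1
    nlinarith [mul_nonneg he'0.le he'0.le]
  calc (c - e) * (S.D n).lgs ≤ (c - e') * (1 - e') * (S.D n).lgs := mul_le_mul_of_nonneg_right h4 hpos.le
    _ = _ := by ring

end prof

end

end Claimed.Agent.R256
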