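import Claimed.Agent.R256.Nm.Mem.Uf
import Claimed.Agent.R256.Nm.Pred.Doc

/-!
# Row 256 (S0496), unit NM, block MEM, file 3: FINITE-SCALE GEOMETRY      (architect helper198; prefix `nm_me_`)

Input: `SfDoc.Core`, `SfDoc.Aff` (`R256/Soft/Doc.lean`), cell kit `Nm/Geo/Cell.lean`, gates and labels of `Nm/Pred/Doc.lean` (`nm_gt_*`, `nm_conn_uniq`, `nm_labAt_eq`).   `t` = tolerance.   PAPER-FREE.
* lists: `nm_me_nval_fun`, `nm_me_sep_count`, `nm_me_centres`, `nm_me_refine`.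
* time:  `nm_me_row_cells` (a row of the gate `i` sees few dyadic time cells of depth `a ≤ i + e`),  `nm_me_cell_rows` (classical: particle + time cell of depth `a ≥ i - e` see few rows of the gate `i`).
* derivative: `nm_me_plink` (raw final derivative of a display with endpoint `1` versus the derivative `D.Pj` guessed in `MemP`), `nm_me_P_bdd`.
* labels: `nm_me_met`, `nm_me_X_lab`.
-/

set_option autoImplicit false

namespace Claimed.Agent.R256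

open Claimed.Agent.R255
open Claimed.Agent.R255.FLaw (pair)
open Classical

noncomputable section

/-! ## lists -/

/-- a reading as a function of the value of the reader -/
theorem nm_me_nval_fun {Ω : Type} [Fintype Ω] {α β : Type} (P : FLaw Ω) (G : Ω → Prop) (B : Ω → β) (A : Ω → α) {N : ℝ} (hN : 0 ≤ N)
    (h : P.NVal G B A N) : ∃ L : α → Finset β, (∀ a, ((L a).card : ℝ) ≤ N) ∧ ∀ ω, P.p ω ≠ 0 → G ω → B ω ∈ L (A ω) := by
  choose S hS1 hS2 using h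
  refine ⟨fun a => if hx : ∃ ω₀, A ω₀ = a then S hx.choose else ∅, fun a => ?_, fun ω hω hG => ?_⟩
  · beta_reduce
    split_ifs with hx
    · exact hS1 _
    · simpa using hN
  · have hx : ∃ ω₀, A ω₀ = A ω := ⟨ω, rfl⟩
    beta_reduce
    rw [dif_pos hx]
    exact hS2 _ ω hω hG hx.choose_spec.symm

/-- `ℓ`-separated reals in an interval of length `Λ` -/
theorem nm_me_sep_count (T : Finset ℝ) (lo Λ ℓ : ℝ) (hℓ : 0 < ℓ) (hΛ : 0 ≤ Λ) (h1 : ∀ t ∈ T, lo ≤ t ∧ t ≤ lo + Λ)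
    (h2 : ∀ t ∈ T, ∀ t' ∈ T, t ≠ t' → ℓ ≤ |t - t'|) : (T.card : ℝ) ≤ Λ / ℓ + 1 := by
  have hinj : Set.InjOn (fun t : ℝ => ⌊(t - lo) / ℓ⌋) (T : Set ℝ) := by
    intro t ht t' ht' he
    by_contra hne
    have h3 := h2 t ht t' ht' hne
    simp only at he
    have a1 := Int.floor_le ((t - lo) / ℓ)
    have a2 := Int.lt_floor_add_one ((t - lo) / ℓ)
    have a3 := Int.floor_le ((t' - lo) / ℓ)
    have a4 := Int.lt_floor_add_one ((t' - lo) / ℓ)
    rw [he] at a1 a2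
    have h4 : |t - t'| < ℓ := by
      have e : t - t' = ((t - lo) / ℓ - (t' - lo) / ℓ) * ℓ := by
        field_simp
        ring
      rw [e, abs_mul, abs_of_pos hℓ]
      have h5 : |(t - lo) / ℓ - (t' - lo) / ℓ| < 1 := by
        rw [abs_lt]
        constructor <;> linarith
      nlinarith
    linarith
  have hsub : T.image (fun t : ℝ => ⌊(t - lo) / ℓ⌋) ⊆ Finset.Icc 0 ⌊Λ / ℓ⌋ := by
    intro n hn
    obtain ⟨t, ht, rfl⟩ := Finset.mem_image.1 hn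
    obtain ⟨b1, b2⟩ := h1 t ht
    rw [Finset.mem_Icc]
    refine ⟨Int.floor_nonneg.2 (div_nonneg (by linarith) hℓ.le), Int.floor_le_floor ?_⟩
    exact div_le_div_of_nonneg_right (by linarith) hℓ.le
  have hcard := Finset.card_le_card hsub
  rw [Finset.card_image_of_injOn hinj, Int.card_Icc] at hcard
  have h5 : 0 ≤ ⌊Λ / ℓ⌋ := Int.floor_nonneg.2 (div_nonneg hΛ hℓ.le)
  have h6 : (((⌊Λ / ℓ⌋ + 1 - 0).toNat : ℕ) : ℝ) = (⌊Λ / ℓ⌋ : ℝ) + 1 := by
    have : (((⌊Λ / ℓ⌋ + 1 - 0).toNat : ℕ) : ℤ) = ⌊Λ / ℓ⌋ + 1 := by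
      rw [Int.toNat_of_nonneg (by linarith)]
      ring
    exact_mod_cast this
  calc (T.card : ℝ) ≤ (((⌊Λ / ℓ⌋ + 1 - 0).toNat : ℕ) : ℝ) := by exact_mod_cast hcard
    _ = (⌊Λ / ℓ⌋ : ℝ) + 1 := h6
    _ ≤ Λ / ℓ + 1 := by linarith [Int.floor_le (Λ / ℓ)]

/-- the cells of depth `b'` of the reals within `K s^b` of finitely many centres -/
theorem nm_me_centres {s : ℝ} (h0 : 0 < s) (h1 : s < 1) (Cs : Finset ℝ) (b b' K : ℝ) (hK : 0 ≤ K) :
    ∃ S : Finset ℤ, (S.card : ℝ) ≤ Cs.card * (4 * K * s ^ (-(b' - b)) + 3) ∧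
      ∀ x : ℝ, (∃ c ∈ Cs, |x - c| ≤ K * s ^ b) → nmCell s b' x ∈ S := by
  have hp : 0 ≤ 2 * K * s ^ (-(b' - b)) + 1 := by
    have := Real.rpow_nonneg h0.le (-(b' - b))
    positivity
  choose F hF1 hF2 using fun c : ℝ => nm_me_int_ball (nmCell s b' c) _ hp
  refine ⟨Cs.biUnion F, ?_, ?_⟩
  · calc ((Cs.biUnion F).card : ℝ) ≤ ∑ c ∈ Cs, ((F c).card : ℝ) := by exact_mod_cast Finset.card_biUnion_le
      _ ≤ ∑ _c ∈ Cs, (4 * K * s ^ (-(b' - b)) + 3) := Finset.sum_le_sum fun c _ => (hF1 c).trans (le_of_eq (by ring))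
      _ = _ := by rw [Finset.sum_const, nsmul_eq_mul]
  · rintro x ⟨c, hc, hx⟩
    exact Finset.mem_biUnion.2 ⟨c, hc, hF2 c _ (nm_cell_close h0 h1 b b' hx)⟩

/-- refinement of a guess: accuracy `Δ` to accuracy `st` -/
theorem nm_me_refine (c Δ st : ℝ) (hst : 0 < st) (hΔ : 0 ≤ Δ) : ∃ F : Finset ℝ, (F.card : ℝ) ≤ 2 * (Δ / st) + 3 ∧
    ∀ x : ℝ, |x - c| ≤ Δ → ∃ γ ∈ F, |γ - x| ≤ st := by
  obtain ⟨S, hS1, hS2⟩ := nm_me_int_ball 0 (Δ / st + 1) (by positivity)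
  refine ⟨S.image (fun n : ℤ => c + n * st), ?_, fun x hx => ?_⟩
  · calc ((S.image (fun n : ℤ => c + n * st)).card : ℝ) ≤ S.card := by exact_mod_cast Finset.card_image_le
      _ ≤ 2 * (Δ / st + 1) + 1 := hS1
      _ = _ := by ring
  · have a1 := Int.floor_le ((x - c) / st)
    have a2 := Int.lt_floor_add_one ((x - c) / st)
    obtain ⟨b1, b2⟩ := abs_le.1 hx
    have c1 : (x - c) / st ≤ Δ / st := div_le_div_of_nonneg_right b2 hst.le
    have c2 : -(Δ / st) ≤ (x - c) / st := by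
      rw [← neg_div]
      exact div_le_div_of_nonneg_right b1 hst.le
    refine ⟨c + ⌊(x - c) / st⌋ * st, Finset.mem_image.2 ⟨_, hS2 _ ?_, rfl⟩, ?_⟩
    · rw [sub_zero, abs_le]
      constructor <;> linarith
    · have e : x - c = (x - c) / st * st := by field_simp
      rw [abs_le]
      constructor <;> nlinarith

/-! ## time -/

section time

variable {D : SfDoc} {π : SfPar} {C0 t : ℝ}

/-- the final time lies in the interval of a connected row -/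
theorem nm_me_time (hD : D.Core π C0 t) {i : ℝ} (hi : i ∈ D.G) (hi1 : i < 1) {ρ : D.Row i} {ω : D.Row 1} (h : D.Conn i 1 ρ ω) :
    D.T i ρ ≤ D.T 1 ω ∧ D.T 1 ω < D.T i ρ + D.len i := by
  obtain ⟨h1, h2, -, -⟩ := hD.base i hi 1 hD.gate.1 hi1 ρ ω h
  refine ⟨h1, ?_⟩
  have := hD.hlen.1
  have := hD.hs.1
  linarith

/-- a row of the gate `i` sees `≤ 4 s^(-(t+e)) + 3` dyadic time cells of depth `a ≤ i + e` -/
theorem nm_me_row_cells (hD : D.Core π C0 t) {i a e : ℝ} (hi : i ∈ D.G) (hi1 : i < 1) (hia : a - i ≤ e) (ρ : D.Row i) :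
    ∃ S : Finset ℤ, (S.card : ℝ) ≤ 4 * D.s ^ (-(t + e)) + 3 ∧ ∀ ω, D.Conn i 1 ρ ω → D.tc a ω ∈ S := by
  obtain ⟨hs0, hs1⟩ := hD.hs
  obtain ⟨S, hS1, hS2⟩ := nm_me_centres hs0 hs1 {D.T i ρ} (i - t) a 1 (by norm_num)
  refine ⟨S, hS1.trans ?_, ?_⟩
  · have h1 : D.s ^ (-(a - (i - t))) ≤ D.s ^ (-(t + e)) := nm_pow_anti hs0 hs1 (by linarith)
    rw [Finset.card_singleton]
    push_cast
    linarith
  · intro ω hω
    obtain ⟨h1, h2⟩ := nm_me_time hD hi hi1 hω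
    refine hS2 _ ⟨D.T i ρ, Finset.mem_singleton_self _, ?_⟩
    have h3 := (hD.hlen.2 i hi).2
    rw [one_mul, abs_le]
    constructor <;> linarith [Real.rpow_pos_of_pos hs0 (i - t)]

/-- classical: the particle and the dyadic time cell of depth `a ≥ i - e` see `≤ s^(-(t+e)) + 2` rows of the gate `i` -/
theorem nm_me_cell_rows (hD : D.Core π C0 t) (hc : π.hyb = false) {i a e : ℝ} (hi : i ∈ D.G) (hi1 : i < 1) (hia : i - a ≤ e) (y : D.Idx × SfRay) (n : ℤ) :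
    ∃ R : Finset (D.Row i), (R.card : ℝ) ≤ D.s ^ (-(t + e)) + 2 ∧
      ∀ ρ ω, D.Conn i 1 ρ ω → D.y0 ω = y → D.tc a ω = n → ρ ∈ R := by
  obtain ⟨hs0, hs1⟩ := hD.hs
  have hlen := hD.hlen.2 i hi
  have hl0 : 0 < D.len i := (Real.rpow_pos_of_pos hs0 _).trans_le hlen.1
  have hw0 := nm_wd_pos D.s a
  refine ⟨Finset.univ.filter (fun ρ => ∃ ω, D.Conn i 1 ρ ω ∧ D.y0 ω = y ∧ D.tc a ω = n), ?_, ?_⟩
  swap
  · intro ρ ω h1 h2 h3
    exact Finset.mem_filter.2 ⟨Finset.mem_univ _, ω, h1, h2, h3⟩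
  obtain ⟨R, hR⟩ : ∃ R : Finset (D.Row i), R = Finset.univ.filter (fun ρ => ∃ ω, D.Conn i 1 ρ ω ∧ D.y0 ω = y ∧ D.tc a ω = n) :=
    ⟨_, rfl⟩
  rw [← hR]
  have hmem : ∀ ρ ∈ R, D.idx i ρ = y.1 ∧ nmVal D.s a n - D.len i ≤ D.T i ρ ∧ D.T i ρ ≤ nmVal D.s a n - D.len i + (D.len i + nmWd D.s a) := by
    intro ρ hρ
    rw [hR] at hρ
    obtain ⟨-, ω, h1, h2, h3⟩ := Finset.mem_filter.1 hρ
    obtain ⟨b1, b2⟩ := nm_me_time hD hi hi1 h1
    have b3 := (hD.base i hi 1 hD.gate.1 hi1 ρ ω h1).2.2.1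
    have c1 := nm_rep_le D.s a (D.T 1 ω)
    have c2 := nm_rep_lt D.s a (D.T 1 ω)
    have c3 : nmRep D.s a (D.T 1 ω) = nmVal D.s a n := by
      rw [nm_rep_val]
      have : nmCell D.s a (D.T 1 ω) = n := h3
      rw [this]
    rw [c3] at c1 c2
    refine ⟨b3.trans (congrArg Prod.fst h2), by linarith, by linarith⟩
  have hinj : Set.InjOn (D.T i) (R : Set (D.Row i)) := by
    intro ρ hρ ρ' hρ' hT
    exact hD.clUniq hc i hi hi1 ρ ρ' ((hmem ρ hρ).1.trans (hmem ρ' hρ').1.symm) hT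
  have hcard : (R.image (D.T i)).card = R.card := Finset.card_image_of_injOn hinj
  have hcnt := nm_me_sep_count (R.image (D.T i)) (nmVal D.s a n - D.len i) (D.len i + nmWd D.s a) (D.len i) hl0
    (by linarith) (by
      intro τ hτ
      obtain ⟨ρ, hρ, rfl⟩ := Finset.mem_image.1 hτ
      exact (hmem ρ hρ).2) (by
      intro τ hτ τ' hτ' hne
      obtain ⟨ρ, hρ, rfl⟩ := Finset.mem_image.1 hτ
      obtain ⟨ρ', hρ', rfl⟩ := Finset.mem_image.1 hτ'
      exact hD.grid i hi ρ ρ' hne)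
  rw [hcard] at hcnt
  refine hcnt.trans ?_
  have e1 : (D.len i + nmWd D.s a) / D.len i = 1 + nmWd D.s a / D.len i := by
    field_simp
  have e2 : nmWd D.s a / D.len i ≤ D.s ^ (-(t + e)) := by
    calc nmWd D.s a / D.len i ≤ D.s ^ a / D.s ^ (i + t) :=
          div_le_div₀ (Real.rpow_pos_of_pos hs0 _).le (nm_wd_le hs0 hs1 a) (Real.rpow_pos_of_pos hs0 _) hlen.1
      _ = D.s ^ (a - (i + t)) := (Real.rpow_sub hs0 _ _).symm
      _ ≤ D.s ^ (-(t + e)) := nm_pow_anti hs0 hs1 (by linarith)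
  rw [e1]
  linarith

end time

/-! ## the derivative -/

/-- the displays with endpoint `1` -/
theorem nm_me_raw_cases {π : SfPar} {ds : NmDs} (hds : ds.Raw π) :
    ds = nmDsEq π ∨ (π.c2 = 0 ∧ ds = nmDsLin) ∨ (π.c2 = 1 ∧ π.q < 1 ∧ ds = nmDsStr π 1) := by
  obtain ⟨hDe, h | h⟩ := hds
  · obtain ⟨q, ⟨-, -, hf⟩, rfl⟩ := h
    rcases hf with ⟨-, -, h3, -⟩ | ⟨h1, -, h3, -⟩ | ⟨h1, h2, -, De, -, -, -, h3⟩
    · exact Or.inl h3
    · exact Or.inr (Or.inl ⟨h1, h3⟩)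
    · refine Or.inr (Or.inr ⟨h1, h2, ?_⟩)
      rw [h3] at hDe
      have : De = 1 := hDe
      rw [h3, this]
  · exact Or.inl h

/-- **the raw final derivative versus the derivative of the label at an earlier gate** (classical, `b_1' > 0`, endpoint `1`).
`Ks` = the possible values of `k̄` (`{0}` if the display has no global bin; strict display: `stK`, `≤ 4 s^(-t) + 3` bins of depth `-1`).
Cases: `c2 ≠ 0` : `cmpA` (third clause, `min (b1 j) (b1 1) = b1 j`);  `c2 = 0`, `ds = nmDsLin` : `linP`;  `c2 = 0`, `ds = nmDsEq π` : `linP` + `|Pd_1 - Pc_1| ≤ 2 (|β_1| + ℓ_1 |K_1|) r_1 ≤ 2 s^(-t)` (`own`, `cmpB`, `hw`). -/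
theorem nm_me_plink {D : SfDoc} {π : SfPar} {C0 τ κ0 t : ℝ} (hD : D.Ok π C0 τ κ0 t) (hπ : π.Valid) (hc : π.hyb = false) (hb : 0 < π.Cr)
    {ds : NmDs} (hds : ds.Raw π) {j : ℝ} (hj : j ∈ D.G) (hj1 : j < 1) :
    ∃ Ks : Finset ℝ, (Ks.card : ℝ) ≤ 4 * D.s ^ (-t) + 3 ∧ ∀ (ρ : D.Row j) (ω : D.Row 1), D.Conn j 1 ρ ω →
      ∃ k ∈ Ks, |(D.raw π ds ω).P - 2 * k * (D.ray 1 ω).B - D.Pj π j ρ| ≤ 3 * D.s ^ (π.b1 j - t) := by
  have hs := hD.core.hs
  have hs0 : 0 < D.s := hs.1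
  have h1G : (1 : ℝ) ∈ D.G := hD.core.gate.1
  have hpos : ∀ x : ℝ, 0 < D.s ^ x := fun x => Real.rpow_pos_of_pos hs0 x
  have hb11 : π.b1 1 = 0 := by unfold SfPar.b1; ring
  have hb1j : π.b1 j ≤ 0 := by
    unfold SfPar.b1
    have : 0 < π.q - π.J := hb
    exact mul_nonpos_of_nonneg_of_nonpos this.le (by linarith)
  have hDe : ds.De = 1 := hds.1
  -- the value of `P` after removing `k̄`
  have hP : ∀ ω : D.Row 1, (D.raw π ds ω).P - 2 * D.kbar π ds ω * (D.ray 1 ω).B =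
      (match ds.cut with
        | NmCut.none => (D.lab 1 ω).Pc
        | _ => (D.lab 1 ω).Pd (D.ray 1 ω)) := by
    intro ω
    have : (D.raw π ds ω).P = (match ds.cut with
        | NmCut.none => (D.labAt ds.De ω).Pc
        | _ => (D.labAt ds.De ω).Pd (D.ray 1 ω)) + 2 * D.kbar π ds ω * (D.ray 1 ω).B := rfl
    rw [this, hDe, nm_labAt_one]
    ring
  -- the bound with `k = k̄`
  have hmain : ∀ (ρ : D.Row j) (ω : D.Row 1), D.Conn j 1 ρ ω →
      |(D.raw π ds ω).P - 2 * D.kbar π ds ω * (D.ray 1 ω).B - D.Pj π j ρ| ≤ 3 * D.s ^ (π.b1 j - t) := by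
    intro ρ ω hcn
    rw [hP ω]
    have hA := (hD.aff.cmpA j hj 1 h1G hj1 ρ ω hcn).2.2
    rw [hb11, min_eq_left hb1j] at hA
    have h13 : D.s ^ (π.b1 j - t) ≤ 3 * D.s ^ (π.b1 j - t) := by linarith [hpos (π.b1 j - t)]
    by_cases hc2 : π.c2 = 0
    · have hPj : D.Pj π j ρ = (D.lab j ρ).Pc := by
        unfold SfDoc.Pj
        rw [if_pos hc2]
      have hL := (hD.aff.linP hc2).1 j hj 1 h1G hj1 ρ ω hcn
      rw [hPj]
      rcases nm_me_raw_cases hds with h | ⟨-, h⟩ | ⟨h, -, -⟩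
      · have hcut : ds.cut = NmCut.const := by
          rw [h]
          unfold nmDsEq
          simp only
          rw [if_neg (by rw [hc2]; norm_num)]
        rw [hcut]
        simp only
        obtain ⟨hr, -, hM, -, -⟩ := hD.core.own 1 h1G ω
        obtain ⟨m1, m2, -, -, -⟩ := hM
        rw [hr, hD.core.hw.1] at m1 m2
        have hB := hD.aff.cmpB 1 h1G ω
        have hb21 : π.b2 1 = 0 := by unfold SfPar.b2; ring
        rw [hc2, hb21] at hB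
        simp only [neg_zero, min_self, zero_sub] at hB
        have hlen : 0 ≤ D.len 1 := by rw [hD.core.hlen.1]; exact hs0.le
        have e1 : (D.lab 1 ω).Pd (D.ray 1 ω) - (D.lab 1 ω).Pc
            = 2 * (D.lab 1 ω).be * ((D.ray 1 ω).X - (D.lab 1 ω).x) - 2 * (D.lab 1 ω).K * ((D.ray 1 ω).Bt (D.lab 1 ω).T - (D.lab 1 ω).b) := by
          unfold SfTest.Pd SfTest.Pc
          ring
        have e2 : |(D.lab 1 ω).Pd (D.ray 1 ω) - (D.lab 1 ω).Pc| ≤ 2 * D.s ^ (-t) := by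
          rw [e1]
          have a1 : |2 * (D.lab 1 ω).be * ((D.ray 1 ω).X - (D.lab 1 ω).x)| ≤ 2 * |(D.lab 1 ω).be| := by
            rw [abs_mul, abs_mul, abs_of_pos (by norm_num : (0:ℝ) < 2)]
            calc 2 * |(D.lab 1 ω).be| * |(D.ray 1 ω).X - (D.lab 1 ω).x| ≤ 2 * |(D.lab 1 ω).be| * 1 :=
                  mul_le_mul_of_nonneg_left m1 (by positivity)
              _ = _ := mul_one _
          have a2 : |2 * (D.lab 1 ω).K * ((D.ray 1 ω).Bt (D.lab 1 ω).T - (D.lab 1 ω).b)| ≤ 2 * (D.len 1 * |(D.lab 1 ω).K|) := by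
            rw [abs_mul, abs_mul, abs_of_pos (by norm_num : (0:ℝ) < 2)]
            calc 2 * |(D.lab 1 ω).K| * |(D.ray 1 ω).Bt (D.lab 1 ω).T - (D.lab 1 ω).b| ≤ 2 * |(D.lab 1 ω).K| * (D.len 1 * 1) :=
                  mul_le_mul_of_nonneg_left m2 (by positivity)
              _ = _ := by ring
          have a3 := abs_sub (2 * (D.lab 1 ω).be * ((D.ray 1 ω).X - (D.lab 1 ω).x)) (2 * (D.lab 1 ω).K * ((D.ray 1 ω).Bt (D.lab 1 ω).T - (D.lab 1 ω).b))
          linarith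
        have e3 : D.s ^ (-t) ≤ D.s ^ (π.b1 j - t) := nm_pw hs (by linarith)
        have e4 : |(D.lab 1 ω).Pd (D.ray 1 ω) - (D.lab j ρ).Pc| ≤ |(D.lab 1 ω).Pd (D.ray 1 ω) - (D.lab 1 ω).Pc| + |(D.lab j ρ).Pc - (D.lab 1 ω).Pc| := by
          have := abs_sub ((D.lab 1 ω).Pd (D.ray 1 ω) - (D.lab 1 ω).Pc) ((D.lab j ρ).Pc - (D.lab 1 ω).Pc)
          have e5 : (D.lab 1 ω).Pd (D.ray 1 ω) - (D.lab 1 ω).Pc - ((D.lab j ρ).Pc - (D.lab 1 ω).Pc) = (D.lab 1 ω).Pd (D.ray 1 ω) - (D.lab j ρ).Pc := by ring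
          rwa [e5] at this
        linarith
      · have hcut : ds.cut = NmCut.none := by rw [h]; rfl
        rw [hcut]
        simp only
        rw [abs_sub_comm]
        exact hL.trans h13
      · rw [hc2] at h
        norm_num at h
    · have hPj : D.Pj π j ρ = (D.lab j ρ).Pd (D.ray j ρ) := by
        unfold SfDoc.Pj
        rw [if_neg hc2]
      rw [hPj]
      have hcut : (match ds.cut with
        | NmCut.none => (D.lab 1 ω).Pc
        | _ => (D.lab 1 ω).Pd (D.ray 1 ω)) = (D.lab 1 ω).Pd (D.ray 1 ω) := by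
        rcases nm_me_raw_cases hds with h | ⟨h, -⟩ | ⟨-, -, h⟩
        · rw [h]
          unfold nmDsEq
          simp only
          split_ifs <;> rfl
        · exact absurd h hc2
        · rw [h]
          rfl
      rw [hcut, abs_sub_comm]
      exact hA.trans h13
  by_cases hg : ds.glob = true
  · -- strict display
    have hstr : π.c2 = 1 ∧ π.q < 1 ∧ ds = nmDsStr π 1 := by
      rcases nm_me_raw_cases hds with h | ⟨-, h⟩ | h
      · rw [h] at hg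
        simp [nmDsEq] at hg
      · rw [h] at hg
        simp [nmDsLin] at hg
      · exact h
    obtain ⟨h1, h2, h3⟩ := hstr
    obtain ⟨S, hS, hSm⟩ := nm_me_centres hs.1 hs.2 {0} (-1 - t) (π.b2 ds.De - ds.De) 1 zero_le_one
    refine ⟨S.image (fun n : ℤ => (n : ℝ) / (2 : ℝ) ^ nmLev D.s (π.b2 ds.De - ds.De)), ?_, fun ρ ω hcn => ⟨D.kbar π ds ω, ?_, hmain ρ ω hcn⟩⟩
    · have hc1 : ((S.image (fun n : ℤ => (n : ℝ) / (2 : ℝ) ^ nmLev D.s (π.b2 ds.De - ds.De))).card : ℝ) ≤ S.card := by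
        exact_mod_cast Finset.card_image_le
      refine hc1.trans (hS.trans (le_of_eq ?_))
      have hb21 : π.b2 1 = 0 := by unfold SfPar.b2; ring
      rw [hDe, hb21]
      simp only [Finset.card_singleton, Nat.cast_one, one_mul, mul_one]
      congr 3
      ring
    · have hk : D.kbar π ds ω = nmRep D.s (π.b2 ds.De - ds.De) (D.labAt ds.De ω).K := by
        unfold SfDoc.kbar
        rw [if_pos hg]
      rw [hk]
      refine Finset.mem_image.2 ⟨nmCell D.s (π.b2 ds.De - ds.De) (D.labAt ds.De ω).K, hSm _ ⟨0, Finset.mem_singleton_self 0, ?_⟩, rfl⟩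
      rw [hDe, nm_labAt_one, sub_zero, one_mul]
      have h4 := hD.aff.stK h1 h2 1 h1G ω
      have e1 : D.s ^ (-1 - t) = D.s ^ (-t) / D.s := by
        rw [show (-1 - t : ℝ) = -t - 1 by ring, Real.rpow_sub hs0, Real.rpow_one]
      rw [e1, le_div_iff₀ hs0]
      linarith
  · refine ⟨{0}, ?_, fun ρ ω hcn => ⟨0, Finset.mem_singleton_self 0, ?_⟩⟩
    · simp only [Finset.card_singleton, Nat.cast_one]
      linarith [hpos (-t)]
    · have hk : D.kbar π ds ω = 0 := by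
        unfold SfDoc.kbar
        rw [if_neg hg]
      have := hmain ρ ω hcn
      rwa [hk] at this

/-- the derivative of a display with endpoint `1` is polynomially bounded (`bdd`, `own`: `0 ≤ T ≤ 1`; `|k̄| ≤ |K| + s^(-1)`) -/
theorem nm_me_P_bdd {D : SfDoc} {π : SfPar} {C0 t : ℝ} (hD : D.Core π C0 t) {ds : NmDs} (hDe : ds.De = 1) (ω : D.Row 1) :
    |(D.raw π ds ω).P| ≤ 11 * D.s ^ (-(2 * C0 + 1)) := by
  obtain ⟨hs0, hs1⟩ := hD.hs
  have hC0 : 0 ≤ C0 := nm_C0_nonneg hD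
  obtain ⟨S, hSd⟩ : ∃ y, y = D.s ^ (-C0) := ⟨_, rfl⟩
  obtain ⟨u, hud⟩ : ∃ y, y = D.s ^ (-1 : ℝ) := ⟨_, rfl⟩
  have hS : 1 ≤ S := by
    rw [hSd]; exact Real.one_le_rpow_of_pos_of_le_one_of_nonpos hs0 hs1.le (by linarith)
  have hu : 1 ≤ u := by
    rw [hud]; exact Real.one_le_rpow_of_pos_of_le_one_of_nonpos hs0 hs1.le (by norm_num)
  have hgoal : D.s ^ (-(2 * C0 + 1)) = S ^ 2 * u := by
    rw [hSd, hud, ← Real.rpow_natCast (D.s ^ (-C0)) 2, ← Real.rpow_mul hs0.le, ← Real.rpow_add hs0]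
    congr 1
    push_cast
    ring
  obtain ⟨hb1, hb2⟩ := hD.bdd 1 hD.gate.1 ω
  rw [← hSd] at hb1 hb2
  unfold SfRay.size at hb1
  unfold SfTest.size at hb2
  simp only [max_le_iff] at hb1 hb2
  obtain ⟨hX, hB, -, -, -⟩ := hb1
  obtain ⟨hx, hb, -, -, -, hal, hbe, hK⟩ := hb2
  obtain ⟨-, -, -, o4, o5⟩ := hD.own 1 hD.gate.1 ω
  have hl1 : 0 < D.len 1 := by rw [hD.hlen.1]; exact hs0
  have hT0 : 0 ≤ (D.lab 1 ω).T := o4
  have hT1 : (D.lab 1 ω).T ≤ 1 := by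
    have : D.T 1 ω = (D.lab 1 ω).T := rfl
    linarith
  have hS0 : 0 ≤ S := by linarith
  have hlab : D.labAt ds.De ω = D.lab 1 ω := by rw [hDe, nm_labAt_one]
  have hkb : |D.kbar π ds ω| ≤ S + u := by
    unfold SfDoc.kbar
    split_ifs with hg
    · rw [hlab, hDe]
      have e : π.b2 1 - 1 = (-1 : ℝ) := by unfold SfPar.b2; ring
      rw [e]
      have h1 := nm_rep_abs hs0 hs1 (-1) (D.lab 1 ω).K
      rw [← hud] at h1
      have h2 := abs_le.1 h1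
      have h3 := abs_le.1 hK
      rw [abs_le]
      constructor <;> linarith [h2.1, h2.2, h3.1, h3.2]
    · rw [abs_zero]; linarith
  have hTa : |(D.lab 1 ω).T| ≤ 1 := abs_le.2 ⟨by linarith, hT1⟩
  have m1 : |(D.lab 1 ω).be * (D.lab 1 ω).x| ≤ S ^ 2 := by
    rw [abs_mul]
    calc _ ≤ S * S := mul_le_mul hbe hx (abs_nonneg _) hS0
      _ = S ^ 2 := by ring
  have m2 : |(D.lab 1 ω).K * (D.lab 1 ω).b| ≤ S ^ 2 := by
    rw [abs_mul]
    calc _ ≤ S * S := mul_le_mul hK hb (abs_nonneg _) hS0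
      _ = S ^ 2 := by ring
  have m3 : |(D.lab 1 ω).be * (D.ray 1 ω).X| ≤ S ^ 2 := by
    rw [abs_mul]
    calc _ ≤ S * S := mul_le_mul hbe hX (abs_nonneg _) hS0
      _ = S ^ 2 := by ring
  have hTX : |(D.lab 1 ω).T * (D.ray 1 ω).X| ≤ S := by
    rw [abs_mul]
    calc _ ≤ 1 * S := mul_le_mul hTa hX (abs_nonneg _) (by norm_num)
      _ = S := one_mul _
  have hBt : |(D.ray 1 ω).B + (D.lab 1 ω).T * (D.ray 1 ω).X| ≤ 2 * S := by
    have := abs_add_le (D.ray 1 ω).B ((D.lab 1 ω).T * (D.ray 1 ω).X)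
    linarith
  have m4 : |(D.lab 1 ω).K * ((D.ray 1 ω).B + (D.lab 1 ω).T * (D.ray 1 ω).X)| ≤ 2 * S ^ 2 := by
    rw [abs_mul]
    calc _ ≤ S * (2 * S) := mul_le_mul hK hBt (abs_nonneg _) hS0
      _ = 2 * S ^ 2 := by ring
  have m5 : |D.kbar π ds ω * (D.ray 1 ω).B| ≤ (S + u) * S := by
    rw [abs_mul]
    exact mul_le_mul hkb hB (abs_nonneg _) (by linarith)
  have p2 : S ≤ S ^ 2 := by nlinarith
  have hmain : |(match ds.cut with
      | NmCut.none => (D.labAt ds.De ω).Pc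
      | _ => (D.labAt ds.De ω).Pd (D.ray 1 ω))| ≤ 7 * S ^ 2 := by
    rw [hlab]
    have a1 := abs_le.1 hal
    have a2 := abs_le.1 m1
    have a3 := abs_le.1 m2
    have a4 := abs_le.1 m3
    have a5 := abs_le.1 m4
    have hPc : |(D.lab 1 ω).Pc| ≤ 7 * S ^ 2 := by
      unfold SfTest.Pc
      rw [abs_le]
      constructor <;> linarith [a1.1, a1.2, a2.1, a2.2, a3.1, a3.2]
    have hPd : |(D.lab 1 ω).Pd (D.ray 1 ω)| ≤ 7 * S ^ 2 := by
      unfold SfTest.Pd SfRay.Bt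
      rw [abs_le]
      constructor <;> linarith [a1.1, a1.2, a4.1, a4.2, a5.1, a5.2]
    rcases ds.cut with _ | _ | _
    · exact hPd
    · exact hPd
    · exact hPc
  have hP : (D.raw π ds ω).P = (match ds.cut with
      | NmCut.none => (D.labAt ds.De ω).Pc
      | _ => (D.labAt ds.De ω).Pd (D.ray 1 ω)) + 2 * D.kbar π ds ω * (D.ray 1 ω).B := rfl
  rw [hP, hgoal]
  have a1 := abs_le.1 hmain
  have a2 := abs_le.1 m5
  have q1 : S ^ 2 ≤ S ^ 2 * u := le_mul_of_one_le_right (sq_nonneg S) hu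
  have q2 : u * S ≤ S ^ 2 * u := by
    have := mul_le_mul_of_nonneg_right p2 (by linarith : (0 : ℝ) ≤ u)
    linarith
  have q3 : (S + u) * S = S ^ 2 + u * S := by ring
  rw [q3] at a2
  rw [abs_le]
  constructor <;> linarith [a1.1, a1.2, a2.1, a2.2]

/-! ## labels -/

/-- classical: a charged final row meets the label `D.labAt j` at the gate `D.gt j` -/
theorem nm_me_met {D : SfDoc} {π : SfPar} {C0 t : ℝ} (hD : D.Core π C0 t) (hc : π.hyb = false) {j : ℝ} (hj : j = 1 ∨ D.gt j < 1)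
    {ω : D.Row 1} (hω : (D.P 1).p ω ≠ 0) : D.Met (D.gt j) (D.labAt j ω) ω := by
  have hg1 : D.gt 1 = 1 := nm_gt_self D hD.gate.1
  unfold SfDoc.Met
  rcases hj with rfl | hj
  · rw [if_pos hg1, nm_labAt_one]
  · have hj1 : j ≠ 1 := by
      rintro rfl
      rw [hg1] at hj
      exact lt_irrefl _ hj
    rw [if_neg hj.ne]
    have hp : 0 < (D.P 1).p ω := lt_of_le_of_ne ((D.P 1).nonneg ω) (Ne.symm hω)
    obtain ⟨ρ, hρ, -⟩ := hD.clPath hc (D.gt j) (nm_gt_mem D ⟨1, hD.gate.1⟩ j) 1 hD.gate.1 hj ω hp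
    exact ⟨ρ, (nm_labAt_eq hD hc hj1 hj hρ).symm, hρ⟩

/-- the angular coordinate of a final row lies in the label of every connected row, up to the negligible error of `base` -/
theorem nm_me_X_lab {D : SfDoc} {π : SfPar} {C0 t : ℝ} (hD : D.Core π C0 t) {j : ℝ} (hj : j ∈ D.G) (hj1 : j < 1)
    {ρ : D.Row j} {ω : D.Row 1} (h : D.Conn j 1 ρ ω) :
    |(D.ray 1 ω).X - (D.ray j ρ).X| ≤ D.s ^ (1 / t) ∧ |(D.ray j ρ).X - (D.lab j ρ).x| ≤ D.r j := by
  have h1 := (hD.base j hj 1 hD.gate.1 hj1 ρ ω h).2.2.2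
  obtain ⟨o1, -, o3, -, -⟩ := hD.own j hj ρ
  refine ⟨?_, ?_⟩
  · rw [abs_sub_comm]
    exact (le_max_left _ _).trans h1
  · rw [← o1]
    exact o3.1

end

end Claimed.Agent.R256
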