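import Claimed.Agent.R256.Nm.Mem.Gate

/-!
# Row 256 (S0496), unit NM, block MEM, file 4: X6 = Prop. names:memory, PREFIX FORM (TYPE A)      (architect helper198; prefix `nm_me_`)

EXITS (verbatim statements of `Nm/Contract.lean`): `nm_me_mem_label`, `nm_me_mem_final`, `nm_me_mem_pred`.       Further TYPE A lists used by Y5: `nm_me_xlist`, `nm_me_plist`, `nm_me_pneg`.

## Proof of `nm_me_mem_label`   (`L = π.Lraw`, `M = π.mnum L`, `μ = M / L`, `A = acc z`)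
`θ = min (A / (16 (μ+1))) (z/2)`;   gates `j' = D.gt j`, `i' = D.gt (j - (z-θ)/L)`, `h' = j' - i' ∈ (z-θ)/L ± 2t`.
(1) WIDTH `nm_me_width`: `s^(u j + z) + s^(1/t) ≤ r_j' s^(L h')`   (`hr`, `(2L+J+1) t ≤ θ/2`).
(2) `S = {ρ : ∃ x ∈ c' (lab ρ), |X ρ - x| ≤ r_j' s^(L h')}`, `c' lam` = left end points of the cells of `c lam`;   `D.Mem` with `R = (μ - acc) z / h'` : `P_j' S ≤ s^(-t) s^E`, `E = (M h' - (μ - acc) z)/2 ≥ (A - μ θ - 2 M t)/2`.
(3) `S` contains every predecessor of the event (`nm_me_X_lab`, `nm_rep_abs`);  `sp` + `nm_me_final`.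
`nm_me_mem_final`: the same with `j' = 1`, no `sp`.
## Proof of `nm_me_mem_pred`   (`L = π.LS`, `M = π.mnum L`)
the same gates; `a0 = j - z/L ≤ i'`.   Guesses of a row `ρ` of the gate `i'` : cells `n` of depth `a0` seen by `ρ` (`nm_me_row_cells`, `e = 0`... `a0 - i' ≤ 0`), bins `m` of the list of `(idx ρ, n)` (`nm_me_nval_fun`), `k ∈ Ks` (`nm_me_plink` at `j'`),
centre `nmVal s (b1 j) m - 2 k B ρ`, refined (`nm_me_refine`) from `Δ = 4 s^(b1 j - (Cr+1) t)` to `st = s^(b1 j + (Cr+2) t) ≤ s^((1-L) h') f_j' / r_j'`.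
Number of guesses `≤ (4 s^(-t) + 3)^2 (8 s^(-(2 Cr + 3) t) + 3) s^(-Zc z/L)`.   `D.MemP`, uniqueness of the classical ancestor (`nm_conn_uniq`, `split`, `clPath`, `nm_labAt_eq`, `normC`), `sp`, `nm_me_final`.
-/

set_option autoImplicit false

namespace Claimed.Agent.R256

open Claimed.Agent.R255
open Claimed.Agent.R255.FLaw (pair)
open Classical

noncomputable section

/-! ## numerics, gates, X6 (label, final) -/

theorem nm_me_width {s t J L j j' h' z θ r : ℝ} (h0 : 0 < s) (h1 : s < 1) (hJ : 0 ≤ J) (hr : s ^ (J * (1 - j') + t) ≤ r) (hjj : |j' - j| ≤ t)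
    (hh : L * h' ≤ z - θ + 2 * L * t) (ht : (2 * L + J + 1) * t ≤ θ / 2) (hbig : J * (1 - j) + z ≤ 1 / t) (hθ : s ^ (θ / 2) ≤ 1 / 2) :
    s ^ (J * (1 - j) + z) + s ^ (1 / t) ≤ r * s ^ (L * h') := by
  have hp : 0 < s ^ (L * h') := Real.rpow_pos_of_pos h0 _
  have e1 : s ^ (J * (1 - j') + t + L * h') ≤ r * s ^ (L * h') := by
    rw [Real.rpow_add h0]
    exact mul_le_mul_of_nonneg_right hr hp.le
  refine le_trans ?_ e1
  have h2 := abs_le.1 hjj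
  have h3 : J * (j - j') ≤ J * t := mul_le_mul_of_nonneg_left (by linarith [h2.1]) hJ
  have h4 : J * (1 - j') + t + L * h' + θ / 2 ≤ J * (1 - j) + z := by nlinarith
  exact nm_me_two h0 h1 hθ h4 (h4.trans hbig)

theorem nm_me_final {s t p E A : ℝ} (h0 : 0 < s) (h1 : s < 1) (hp0 : 0 ≤ p) (hp : p ≤ s ^ (-t) * s ^ E)
    (hE : A / 4 + A / 24 ≤ -t + 2 / 3 * (E - t)) (hbig : A / 4 + A / 24 ≤ 1 / t) (hA : s ^ (A / 24) ≤ 1 / 2) :
    s ^ (-t) * p ^ ((2 : ℝ) / 3) + s ^ (1 / t) ≤ s ^ (A / 4) := by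
  have e1 : p ^ ((2 : ℝ) / 3) ≤ s ^ (2 / 3 * (E - t)) := by
    have : p ≤ s ^ (E - t) := by
      rw [← Real.rpow_add h0] at hp
      rwa [show E - t = -t + E by ring]
    calc p ^ ((2 : ℝ) / 3) ≤ (s ^ (E - t)) ^ ((2 : ℝ) / 3) := Real.rpow_le_rpow hp0 this (by norm_num)
      _ = s ^ (2 / 3 * (E - t)) := by rw [← Real.rpow_mul h0.le]; congr 1; ring
  have e2 : s ^ (-t) * p ^ ((2 : ℝ) / 3) ≤ s ^ (-t + 2 / 3 * (E - t)) := by
    rw [Real.rpow_add h0]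
    exact mul_le_mul_of_nonneg_left e1 (Real.rpow_nonneg h0.le _)
  have e3 := nm_me_two h0 h1 hA hE hbig
  linarith

/-- **choice of `θ`, `t0`** for the three memory statements; `ε1`, `K1` = further smallness -/
theorem nm_me_setup (L M J j z acc ε1 K1 : ℝ) (hL : 1 ≤ L) (hM : 0 < M) (hJ : 0 ≤ J) (hj : 0 < j ∧ j ≤ 1) (hz : 0 < z ∧ z < L * j) (hacc : 0 < acc)
    (hε1 : 0 < ε1) :
    ∃ θ t : ℝ, 0 < θ ∧ θ ≤ z / 2 ∧ 0 < t ∧ t ≤ 1 ∧ M / L * θ / 3 ≤ acc * z / 48 ∧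
      (2 * L + J + 1) * t ≤ θ / 2 ∧ (M + 3) * t ≤ acc * z / 48 ∧ 2 * t < j - z / L ∧ (j < 1 → 2 * t < 1 - j) ∧ 4 * L * t < z ∧
      J * (1 - j) + z ≤ 1 / t ∧ acc * z / 4 + acc * z / 24 ≤ 1 / t ∧ t ≤ ε1 ∧
      ∀ s : ℝ, 0 < s → s ≤ t → s ^ (θ / 2) ≤ 1 / 2 ∧ s ^ (acc * z / 24) ≤ 1 / 2 ∧ K1 * s ^ ε1 ≤ 1 := by
  have hL0 : 0 < L := lt_of_lt_of_le one_pos hL
  have hA : 0 < acc * z := mul_pos hacc hz.1
  have hμ : 0 < M / L := div_pos hM hL0
  set θ : ℝ := min (acc * z / (16 * (M / L + 1))) (z / 2) with hθ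
  have hθ0 : 0 < θ := lt_min (by positivity) (by linarith [hz.1])
  have hgap : 0 < j - z / L := by
    have : z / L < j := by rw [div_lt_iff₀ hL0]; linarith [hz.2]
    linarith
  -- the list of upper bounds for `t`
  set ε : ℝ := min (min (min (θ / (2 * (2 * L + J + 1))) (acc * z / (48 * (M + 3)))) (min ((j - z / L) / 3) (if j < 1 then (1 - j) / 3 else 1)))
    (min (min (z / (5 * L)) ε1) (min (θ / 2) (acc * z / 24))) with hε
  have hif : 0 < (if j < 1 then (1 - j) / 3 else 1 : ℝ) := by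
    split_ifs with h
    · linarith
    · exact one_pos
  have hε0 : 0 < ε := by
    refine lt_min (lt_min (lt_min (div_pos hθ0 (by linarith)) (div_pos hA (by linarith))) (lt_min (by linarith) hif))
      (lt_min (lt_min (div_pos hz.1 (by linarith)) hε1) (lt_min (by linarith) (by linarith)))
  obtain ⟨t, ht0, hte, ht1, hbig, hsm⟩ := nm_me_t0 ε (max (max 2 K1) (max (J * (1 - j) + z) (acc * z / 4 + acc * z / 24))) hε0
  have b1 : t ≤ θ / (2 * (2 * L + J + 1)) := hte.trans (((min_le_left _ _).trans (min_le_left _ _)).trans (min_le_left _ _))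
  have b2 : t ≤ acc * z / (48 * (M + 3)) := hte.trans (((min_le_left _ _).trans (min_le_left _ _)).trans (min_le_right _ _))
  have b3 : t ≤ (j - z / L) / 3 := hte.trans (((min_le_left _ _).trans (min_le_right _ _)).trans (min_le_left _ _))
  have b4 : t ≤ (if j < 1 then (1 - j) / 3 else 1 : ℝ) := hte.trans (((min_le_left _ _).trans (min_le_right _ _)).trans (min_le_right _ _))
  have b5 : t ≤ z / (5 * L) := hte.trans (((min_le_right _ _).trans (min_le_left _ _)).trans (min_le_left _ _))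
  have b6 : t ≤ ε1 := hte.trans (((min_le_right _ _).trans (min_le_left _ _)).trans (min_le_right _ _))
  have b7 : ε ≤ θ / 2 := ((min_le_right _ _).trans (min_le_right _ _)).trans (min_le_left _ _)
  have b8 : ε ≤ acc * z / 24 := ((min_le_right _ _).trans (min_le_right _ _)).trans (min_le_right _ _)
  have b9 : ε ≤ ε1 := ((min_le_right _ _).trans (min_le_left _ _)).trans (min_le_right _ _)
  refine ⟨θ, t, hθ0, min_le_right _ _, ht0, ht1, ?_, ?_, ?_, by linarith, ?_, ?_, ?_, ?_, b6, ?_⟩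
  · have h1 : θ ≤ acc * z / (16 * (M / L + 1)) := min_le_left _ _
    rw [le_div_iff₀ (by positivity)] at h1
    nlinarith
  · rw [le_div_iff₀ (by linarith)] at b1
    linarith
  · rw [le_div_iff₀ (by linarith)] at b2
    linarith
  · intro h
    rw [if_pos h] at b4
    linarith
  · rw [le_div_iff₀ (by linarith)] at b5
    nlinarith
  · exact ((le_max_left _ _).trans (le_max_right _ _)).trans hbig
  · exact ((le_max_right _ _).trans (le_max_right _ _)).trans hbig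
  · intro s hs hst
    have hs1 : s ≤ 1 := hst.trans ht1
    have h1 := hsm s hs hst
    have hp : 0 ≤ s ^ ε := Real.rpow_nonneg hs.le _
    have h2 : 2 * s ^ ε ≤ 1 :=
      le_trans (mul_le_mul_of_nonneg_right ((le_max_left _ _).trans (le_max_left _ _)) hp) h1
    have h3 : K1 * s ^ ε ≤ 1 :=
      le_trans (mul_le_mul_of_nonneg_right ((le_max_right _ _).trans (le_max_left _ _)) hp) h1
    have a1 : s ^ (θ / 2) ≤ s ^ ε := Real.rpow_le_rpow_of_exponent_ge hs hs1 b7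
    have a2 : s ^ (acc * z / 24) ≤ s ^ ε := Real.rpow_le_rpow_of_exponent_ge hs hs1 b8
    have a3 : s ^ ε1 ≤ s ^ ε := Real.rpow_le_rpow_of_exponent_ge hs hs1 b9
    refine ⟨by linarith, by linarith, ?_⟩
    rcases le_or_gt K1 0 with hK | hK
    · have := mul_nonpos_of_nonpos_of_nonneg hK (Real.rpow_nonneg hs.le ε1)
      linarith
    · exact (mul_le_mul_of_nonneg_left a3 hK.le).trans h3

theorem nm_me_Lraw (π : SfPar) : 1 ≤ π.Lraw ∧ 1 ≤ π.LS := ⟨le_max_left _ _, le_max_left _ _⟩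

theorem nm_me_mnum {π : SfPar} (hπ : π.Valid) {L : ℝ} (hL : 1 ≤ L) : 0 < π.mnum L := by
  unfold SfPar.mnum
  have h1 := hπ.d1.2
  have h2 := hπ.gam
  have h3 := hπ.eta.1
  have h4 : 0 ≤ π.η * (L - 1) := mul_nonneg h3.le (by linarith)
  linarith

/-- the two gates -/
theorem nm_me_gates {D : SfDoc} {π : SfPar} {C0 τ κ0 t : ℝ} (hD : D.Fine π C0 τ κ0 t) {L j z θ : ℝ} (hL : 1 ≤ L) (hj : 0 < j ∧ j ≤ 1)
    (hθ : 0 < θ ∧ θ ≤ z / 2) (h1 : 2 * t < j - z / L) (h3 : 4 * L * t < z) :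
    D.gt j ∈ D.G ∧ D.gt (j - (z - θ) / L) ∈ D.G ∧ 0 < D.gt (j - (z - θ) / L) ∧ D.gt (j - (z - θ) / L) < D.gt j ∧ |D.gt j - j| ≤ t ∧
      L * (D.gt j - D.gt (j - (z - θ) / L)) ≤ z - θ + 2 * L * t ∧ (z - θ) / L - 2 * t ≤ D.gt j - D.gt (j - (z - θ) / L) ∧
      j - z / L + θ / L - t ≤ D.gt (j - (z - θ) / L) := by
  have hL0 : 0 < L := lt_of_lt_of_le one_pos hL
  have hne : D.G.Nonempty := ⟨1, hD.ok.core.gate.1⟩
  have ht := hD.pos
  have hz : 0 < z := by linarith [hθ.1, hθ.2]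
  have e1 : (z - θ) / L = z / L - θ / L := sub_div _ _ _
  have hθL : 0 < θ / L := div_pos hθ.1 hL0
  have hzθ : 0 ≤ (z - θ) / L := div_nonneg (by linarith [hθ.2]) hL0.le
  have hi0 : 0 ≤ j - (z - θ) / L := by rw [e1]; linarith
  have hi1 : j - (z - θ) / L ≤ 1 := by linarith [hj.2]
  have n1 := abs_le.1 (nm_gt_near hD hj.1.le hj.2)
  have n2 := abs_le.1 (nm_gt_near hD hi0 hi1)
  have hhalf : z / (2 * L) ≤ (z - θ) / L := by
    rw [div_le_div_iff₀ (by positivity) hL0]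
    nlinarith [hθ.2]
  have h4 : 2 * t < z / (2 * L) := by
    rw [lt_div_iff₀ (by positivity)]
    nlinarith
  refine ⟨nm_gt_mem D hne _, nm_gt_mem D hne _, ?_, ?_, nm_gt_near hD hj.1.le hj.2, ?_, ?_, ?_⟩
  · linarith [n2.1, e1]
  · linarith [n1.1, n2.2]
  · have : D.gt j - D.gt (j - (z - θ) / L) ≤ (z - θ) / L + 2 * t := by linarith [n1.2, n2.1]
    calc L * (D.gt j - D.gt (j - (z - θ) / L)) ≤ L * ((z - θ) / L + 2 * t) := mul_le_mul_of_nonneg_left this hL0.le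
      _ = z - θ + 2 * L * t := by field_simp
  · linarith [n1.1, n2.2]
  · linarith [n2.1, e1]

/-- the exponent of the memory bound -/
theorem nm_me_expo {L M R Z h' z θ t acc ζ : ℝ} (hL : 1 ≤ L) (hM : 0 < M) (hh : (z - θ) / L - 2 * t ≤ h') (hRZ : (R + Z) * h' ≤ (M / L - acc) * z + ζ) :
    (acc * z - M / L * θ - 2 * M * t - ζ) / 2 ≤ (M - R - Z) / 2 * h' := by
  have hL0 : 0 < L := lt_of_lt_of_le one_pos hL
  have h1 : M * ((z - θ) / L - 2 * t) ≤ M * h' := mul_le_mul_of_nonneg_left hh hM.le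
  have h2 : M * ((z - θ) / L - 2 * t) = M / L * z - M / L * θ - 2 * M * t := by field_simp
  nlinarith

/-- **X6** memory, prefix form, `j < 1` -/
theorem nm_me_mem_label (π : SfPar) (hπ : π.Valid) (C0 τ κ0 : ℝ) (j z : ℝ) (hj : 0 < j ∧ j < 1) (hz : 0 < z ∧ z < π.Lraw * j) :
    NmA π C0 τ κ0 fun acc D => ∀ c : SfTest → Finset ℤ, (∀ lam, ((c lam).card : ℝ) ≤ D.s ^ (-((π.mu π.Lraw - acc) * z))) →
      (D.P 1).pr (fun ω => ∀ ρ, D.Conn (D.gt j) 1 ρ ω → D.Xc (π.u j + z) ω ∈ c (D.lab (D.gt j) ρ)) ≤ D.s ^ (acc * z / 4) := by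
  intro acc hacc
  have hL := (nm_me_Lraw π).1
  have hM := nm_me_mnum hπ hL
  obtain ⟨θ, t, hθ0, hθz, ht0, ht1, hμθ, hw, hMt, hgap, hj1, h4L, hbig1, hbig2, -, hsm⟩ :=
    nm_me_setup π.Lraw (π.mnum π.Lraw) π.J j z acc 1 1 hL hM hπ.J0 ⟨hj.1, hj.2.le⟩ hz hacc one_pos
  refine ⟨t, ht0, fun D hD hX c hc => ?_⟩
  obtain ⟨hs0, hs1⟩ := hD.ok.core.hs
  obtain ⟨hsθ, hsA, -⟩ := hsm D.s hs0 hD.sm
  obtain ⟨hjG, hiG, hi0, hij, hjj, hLh, hhl, -⟩ := nm_me_gates hD hL ⟨hj.1, hj.2.le⟩ ⟨hθ0, hθz⟩ hgap h4L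
  set j' : ℝ := D.gt j with hj'
  set i' : ℝ := D.gt (j - (z - θ) / π.Lraw) with hi'
  have hj'1 : j' < 1 := by
    have := abs_le.1 hjj
    linarith [hj1 hj.2, this.2]
  have hh0 : 0 < j' - i' := by linarith
  have hW : D.s ^ (π.u j + z) + D.s ^ (1 / t) ≤ D.r j' * D.s ^ (π.Lraw * (j' - i')) :=
    nm_me_width hs0 hs1 hπ.J0 (hD.ok.aff.hr j' hjG).1 hjj hLh hw hbig1 hsθ
  set R : ℝ := (π.mu π.Lraw - acc) * z / (j' - i') with hR
  have hRh : R * (j' - i') = (π.mu π.Lraw - acc) * z := by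
    rw [hR]; field_simp
  have hMem := hX.1 i' hiG j' hjG hi0 hij R (fun lam => (c lam).image (nmVal D.s (π.u j + z))) (fun lam => by
    rw [hRh]
    exact le_trans (by exact_mod_cast Finset.card_image_le) (hc lam))
  have hsp := hD.ok.core.sp j' hjG 1 hD.ok.core.gate.1 hj'1
    (fun ω => ∀ ρ, D.Conn j' 1 ρ ω → D.Xc (π.u j + z) ω ∈ c (D.lab j' ρ))
    (fun ρ => ∃ x ∈ (c (D.lab j' ρ)).image (nmVal D.s (π.u j + z)), |(D.ray j' ρ).X - x| ≤ D.r j' * D.s ^ (π.Lraw * (j' - i')))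
    (fun ω hω ρ hρ => by
      refine ⟨nmVal D.s (π.u j + z) (D.Xc (π.u j + z) ω), Finset.mem_image_of_mem _ (hω ρ hρ), le_trans ?_ hW⟩
      have a1 := (nm_me_X_lab hD.ok.core hjG hj'1 hρ).1
      have a2 := nm_rep_abs hs0 hs1 (π.u j + z) (D.ray 1 ω).X
      have a3 : nmVal D.s (π.u j + z) (D.Xc (π.u j + z) ω) = nmRep D.s (π.u j + z) (D.ray 1 ω).X := rfl
      rw [a3]
      rw [abs_le] at a1 a2 ⊢
      constructor <;> linarith [a1.1, a1.2, a2.1, a2.2])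
  refine hsp.trans ?_
  have hE := nm_me_expo (R := R) (Z := 0) (ζ := 0) hL hM hhl (by
    rw [add_zero, add_zero, hRh]
    exact le_of_eq rfl)
  rw [sub_zero] at hE
  exact nm_me_final hs0 hs1 (ent_pr_nonneg _ _) hMem (by nlinarith) hbig2 hsA

/-- **X6** memory, prefix form, `j = 1` -/
theorem nm_me_mem_final (π : SfPar) (hπ : π.Valid) (C0 τ κ0 : ℝ) (z : ℝ) (hz : 0 < z ∧ z < π.Lraw) :
    NmA π C0 τ κ0 fun acc D => ∀ c : SfTest → Finset ℤ, (∀ lam, ((c lam).card : ℝ) ≤ D.s ^ (-((π.mu π.Lraw - acc) * z))) →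
      (D.P 1).pr (fun ω => D.Xc z ω ∈ c (D.lab 1 ω)) ≤ D.s ^ (acc * z / 4) := by
  intro acc hacc
  have hL := (nm_me_Lraw π).1
  have hM := nm_me_mnum hπ hL
  obtain ⟨θ, t, hθ0, hθz, ht0, ht1, hμθ, hw, hMt, hgap, -, h4L, hbig1, hbig2, -, hsm⟩ :=
    nm_me_setup π.Lraw (π.mnum π.Lraw) π.J 1 z acc 1 1 hL hM hπ.J0 ⟨one_pos, le_rfl⟩ ⟨hz.1, by rw [mul_one]; exact hz.2⟩ hacc one_pos
  refine ⟨t, ht0, fun D hD hX c hc => ?_⟩
  obtain ⟨hs0, hs1⟩ := hD.ok.core.hs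
  obtain ⟨hsθ, hsA, -⟩ := hsm D.s hs0 hD.sm
  obtain ⟨hjG, hiG, hi0, hij, hjj, hLh, hhl, -⟩ := nm_me_gates hD hL ⟨one_pos, le_rfl⟩ ⟨hθ0, hθz⟩ hgap h4L
  rw [nm_gt_self D hD.ok.core.gate.1] at hjG hij hjj hLh hhl
  set i' : ℝ := D.gt (1 - (z - θ) / π.Lraw) with hi'
  have hh0 : 0 < 1 - i' := by linarith
  have hW : D.s ^ (π.u 1 + z) + D.s ^ (1 / t) ≤ D.r 1 * D.s ^ (π.Lraw * (1 - i')) :=
    nm_me_width hs0 hs1 hπ.J0 (hD.ok.aff.hr 1 hjG).1 hjj hLh hw hbig1 hsθ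
  have hu1 : π.u 1 + z = z := by unfold SfPar.u; ring
  rw [hu1] at hW
  set R : ℝ := (π.mu π.Lraw - acc) * z / (1 - i') with hR
  have hRh : R * (1 - i') = (π.mu π.Lraw - acc) * z := by
    rw [hR]; field_simp
  have hMem := hX.1 i' hiG 1 hjG hi0 hij R (fun lam => (c lam).image (nmVal D.s z)) (fun lam => by
    rw [hRh]
    exact le_trans (by exact_mod_cast Finset.card_image_le) (hc lam))
  refine le_trans (ent_pr_mono _ fun ω _ hω => ?_) (hMem.trans ?_)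
  · refine ⟨nmVal D.s z (D.Xc z ω), Finset.mem_image_of_mem _ hω, le_trans ?_ hW⟩
    have a2 := nm_rep_abs hs0 hs1 z (D.ray 1 ω).X
    have a3 : nmVal D.s z (D.Xc z ω) = nmRep D.s z (D.ray 1 ω).X := rfl
    rw [a3]
    have := Real.rpow_nonneg hs0.le (1 / t)
    linarith
  · have hE := nm_me_expo (R := R) (Z := 0) (ζ := 0) hL hM hhl (by
      rw [add_zero, add_zero, hRh]
      exact le_of_eq rfl)
    rw [sub_zero] at hE
    rw [← Real.rpow_add hs0]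
    exact nm_me_anti hs0 hs1 (by nlinarith)


/-- cardinality of a union of lists -/
theorem nm_me_card_biUnion {α β : Type} (S : Finset α) (f : α → Finset β) {a K : ℝ} (hS : (S.card : ℝ) ≤ a) (hK : 0 ≤ K)
    (hf : ∀ x ∈ S, ((f x).card : ℝ) ≤ K) : ((S.biUnion f).card : ℝ) ≤ a * K := by
  have h3 : ((S.biUnion f).card : ℝ) ≤ ∑ x ∈ S, ((f x).card : ℝ) := by
    exact_mod_cast Finset.card_biUnion_le
  have h4 := Finset.sum_le_card_nsmul S (fun x => ((f x).card : ℝ)) K hf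
  rw [nsmul_eq_mul] at h4
  exact h3.trans (h4.trans (mul_le_mul_of_nonneg_right hS hK))

/-- the number of guesses -/
theorem nm_me_guess_num {s t Cr ζ N : ℝ} (h0 : 0 < s) (h1 : s < 1) (ht : 0 < t) (hCr : 0 < Cr) (hN : 0 ≤ N) (hζ : (2 * Cr + 5) * t ≤ ζ / 2)
    (hs : 539 * s ^ (ζ / 2) ≤ 1) :
    (4 * s ^ (-(t + 0)) + 3) * (N * ((4 * s ^ (-t) + 3) * (2 * (4 * s ^ (-((2 * Cr + 3) * t))) + 3))) ≤ s ^ (-ζ) * N := by
  have a1 : (1 : ℝ) ≤ s ^ (-t) := Real.one_le_rpow_of_pos_of_le_one_of_nonpos h0 h1.le (by linarith)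
  have a2 : (1 : ℝ) ≤ s ^ (-((2 * Cr + 3) * t)) :=
    Real.one_le_rpow_of_pos_of_le_one_of_nonpos h0 h1.le (by nlinarith)
  have e0 : s ^ (-(t + 0)) = s ^ (-t) := by rw [add_zero]
  rw [e0]
  have b1 : 4 * s ^ (-t) + 3 ≤ 7 * s ^ (-t) := by linarith
  have b2 : 2 * (4 * s ^ (-((2 * Cr + 3) * t))) + 3 ≤ 11 * s ^ (-((2 * Cr + 3) * t)) := by linarith
  have hp1 : 0 < s ^ (-t) := Real.rpow_pos_of_pos h0 _
  have hp2 : 0 < s ^ (-((2 * Cr + 3) * t)) := Real.rpow_pos_of_pos h0 _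
  have b3 : (4 * s ^ (-t) + 3) * ((4 * s ^ (-t) + 3) * (2 * (4 * s ^ (-((2 * Cr + 3) * t))) + 3))
      ≤ 7 * s ^ (-t) * (7 * s ^ (-t) * (11 * s ^ (-((2 * Cr + 3) * t)))) := by
    refine mul_le_mul b1 (mul_le_mul b1 b2 (by positivity) (by positivity)) (by positivity) (by positivity)
  have b4 : 7 * s ^ (-t) * (7 * s ^ (-t) * (11 * s ^ (-((2 * Cr + 3) * t)))) = 539 * s ^ (-((2 * Cr + 5) * t)) := by
    have : s ^ (-((2 * Cr + 5) * t)) = s ^ (-t) * (s ^ (-t) * s ^ (-((2 * Cr + 3) * t))) := by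
      rw [← Real.rpow_add h0, ← Real.rpow_add h0]; congr 1; ring
    rw [this]; ring
  have b5 : 539 * s ^ (-((2 * Cr + 5) * t)) ≤ s ^ (-ζ) :=
    nm_me_abs h0 h1 (by norm_num) hs (by linarith)
  calc (4 * s ^ (-t) + 3) * (N * ((4 * s ^ (-t) + 3) * (2 * (4 * s ^ (-((2 * Cr + 3) * t))) + 3)))
      = (4 * s ^ (-t) + 3) * ((4 * s ^ (-t) + 3) * (2 * (4 * s ^ (-((2 * Cr + 3) * t))) + 3)) * N := by ring
    _ ≤ s ^ (-ζ) * N := mul_le_mul_of_nonneg_right (b3.trans (b4.le.trans b5)) hN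

/-- **X6** memory, prediction variant -/
theorem nm_me_mem_pred (π : SfPar) (hπ : π.Valid) (hc : π.hyb = false) (hb : 0 < π.Cr) (C0 τ κ0 : ℝ) (ds : NmDs) (hds : ds.Raw π)
    (j z Zc : ℝ) (hj : 0 < j ∧ j < 1) (hz : 0 < z ∧ z < π.LS * j) (hZ : 0 ≤ Zc) :
    NmA π C0 τ κ0 fun acc D => ∀ G : D.Row 1 → Prop,
      (D.P 1).NVal G (D.Pc π ds (π.b1 j)) (pair D.y0 (D.tc (j - z / π.LS))) (D.s ^ (-(Zc * (z / π.LS)))) →
      ∀ c : SfTest → Finset ℤ, (∀ lam, ((c lam).card : ℝ) ≤ D.s ^ (-(((π.mnum π.LS - Zc) / π.LS - acc) * z))) →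
      (D.P 1).pr (fun ω => G ω ∧ D.Xc (π.u j + z) ω ∈ c (D.labAt j ω)) ≤ D.s ^ (acc * z / 4) := by
  intro acc hacc
  have hL := (nm_me_Lraw π).2
  have hL0 : 0 < π.LS := lt_of_lt_of_le one_pos hL
  have hM := nm_me_mnum hπ hL
  have hA : 0 < acc * z := mul_pos hacc hz.1
  set ζ : ℝ := acc * z / 16 with hζ
  have hζ0 : 0 < ζ := by positivity
  set ε1 : ℝ := min (min (ζ / 2) (ζ / (2 * (2 * π.Cr + 5)))) (1 / (acc * z / 4 + acc * z / 24)) with hε1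
  have hε10 : 0 < ε1 := lt_min (lt_min (by positivity) (by positivity)) (by positivity)
  obtain ⟨θ, t, hθ0, hθz, ht0, ht1, hμθ, hw, hMt, hgap, hj1, h4L, hbig1, -, htε, hsm⟩ :=
    nm_me_setup π.LS (π.mnum π.LS) π.J j z (acc / 2) ε1 539 hL hM hπ.J0 ⟨hj.1, hj.2.le⟩ hz (by positivity) hε10
  refine ⟨t, ht0, fun D hD hX G hG c hc' => ?_⟩
  have hcore := hD.ok.core
  obtain ⟨hs0, hs1⟩ := hcore.hs
  obtain ⟨hsθ, hsA, hs539⟩ := hsm D.s hs0 hD.sm
  obtain ⟨hjG, hiG, hi0, hij, hjj, hLh, hhl, hia⟩ := nm_me_gates hD hL ⟨hj.1, hj.2.le⟩ ⟨hθ0, hθz⟩ hgap h4L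
  set j' : ℝ := D.gt j with hj'
  set i' : ℝ := D.gt (j - (z - θ) / π.LS) with hi'
  have hjj' := abs_le.1 hjj
  have hj'1 : j' < 1 := by linarith [hj1 hj.2, hjj'.2]
  have hi'1 : i' < 1 := hij.trans hj'1
  have hh0 : 0 < j' - i' := by linarith
  have h1G := hcore.gate.1
  -- smallness
  have c1 : t ≤ ζ / (2 * (2 * π.Cr + 5)) := htε.trans ((min_le_left _ _).trans (min_le_right _ _))
  have c1' : (2 * π.Cr + 5) * t ≤ ζ / 2 := by
    rw [le_div_iff₀ (by positivity)] at c1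
    linarith
  have c2 : 539 * D.s ^ (ζ / 2) ≤ 1 := by
    refine le_trans (mul_le_mul_of_nonneg_left ?_ (by norm_num)) hs539
    exact nm_me_anti hs0 hs1 ((min_le_left _ _).trans (min_le_left _ _))
  have c3 : acc * z / 4 + acc * z / 24 ≤ 1 / t := by
    have : t ≤ 1 / (acc * z / 4 + acc * z / 24) := htε.trans (min_le_right _ _)
    rw [le_div_iff₀ (by positivity)] at this
    rw [le_div_iff₀ ht0]
    linarith
  have c4 : D.s ^ (acc * z / 24) ≤ 1 / 2 := by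
    refine le_trans (nm_me_anti hs0 hs1 ?_) hsA
    linarith
  have hW : D.s ^ (π.u j + z) + D.s ^ (1 / t) ≤ D.r j' * D.s ^ (π.LS * (j' - i')) :=
    nm_me_width hs0 hs1 hπ.J0 (hD.ok.aff.hr j' hjG).1 hjj hLh hw hbig1 hsθ
  -- the time cells seen by a row of the gate `i'`
  have ha0 : j - z / π.LS - i' ≤ 0 := by
    have : t ≤ θ / π.LS := by
      rw [le_div_iff₀ hL0]
      have h6 : 0 ≤ (π.LS + π.J + 1) * t := mul_nonneg (by linarith [hπ.J0]) ht0.le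
      linarith
    linarith
  choose Sc hSc1 hSc2 using fun ρ : D.Row i' => nm_me_row_cells hcore hiG hi'1 ha0 ρ
  -- the lists of the bins of the derivative
  obtain ⟨Lf, hLf1, hLf2⟩ := nm_me_nval_fun (D.P 1) G _ _ (Real.rpow_nonneg hs0.le _) hG
  -- the values of `k̄`
  obtain ⟨Ks, hKs1, hKs2⟩ := nm_me_plink hD.ok hπ hc hb hds hjG hj'1
  -- refinement of the guesses
  set Δ : ℝ := 4 * D.s ^ (π.b1 j - (π.Cr + 1) * t) with hΔ
  set st : ℝ := D.s ^ (π.b1 j + (π.Cr + 2) * t) with hst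
  have hst0 : 0 < st := Real.rpow_pos_of_pos hs0 _
  have hΔ0 : 0 ≤ Δ := by positivity
  have hΔst : Δ / st = 4 * D.s ^ (-((2 * π.Cr + 3) * t)) := by
    rw [hΔ, hst, mul_div_assoc, ← Real.rpow_sub hs0]
    congr 2; ring
  choose F hF1 hF2 using fun cen : ℝ => nm_me_refine cen Δ st hst0 hΔ0
  let gs : D.Row i' → Finset ℝ := fun ρ => (Sc ρ).biUnion fun n => (Lf ((D.idx i' ρ, D.ray i' ρ), n)).biUnion fun m =>
    Ks.biUnion fun k => F (nmVal D.s (π.b1 j) m - 2 * k * (D.ray i' ρ).B)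
  set R : ℝ := ((π.mnum π.LS - Zc) / π.LS - acc) * z / (j' - i') with hR
  set Z : ℝ := (Zc * (z / π.LS) + ζ) / (j' - i') with hZd
  have hRh : R * (j' - i') = ((π.mnum π.LS - Zc) / π.LS - acc) * z := by
    rw [hR]; field_simp
  have hZh : Z * (j' - i') = Zc * (z / π.LS) + ζ := by
    rw [hZd]; field_simp
  have hgs : ∀ ρ, ((gs ρ).card : ℝ) ≤ D.s ^ (-(Z * (j' - i'))) := by
    intro ρ
    rw [hZh]
    have hN0 : 0 ≤ D.s ^ (-(Zc * (z / π.LS))) := Real.rpow_nonneg hs0.le _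
    have hp1 : 0 ≤ 4 * D.s ^ (-t) + 3 := by have := Real.rpow_nonneg hs0.le (-t); positivity
    have hp2 : 0 ≤ 2 * (Δ / st) + 3 := by positivity
    have h1 : ((gs ρ).card : ℝ) ≤ (4 * D.s ^ (-(t + 0)) + 3) * (D.s ^ (-(Zc * (z / π.LS))) * ((4 * D.s ^ (-t) + 3) * (2 * (Δ / st) + 3))) := by
      refine nm_me_card_biUnion _ _ (hSc1 ρ) (by positivity) fun n _ => ?_
      refine nm_me_card_biUnion _ _ (hLf1 _) (by positivity) fun m _ => ?_
      exact nm_me_card_biUnion _ _ hKs1 hp2 fun k _ => hF1 _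
    rw [hΔst] at h1
    refine h1.trans ((nm_me_guess_num hs0 hs1 ht0 hb hN0 c1' c2).trans (le_of_eq ?_))
    rw [← Real.rpow_add hs0]; congr 1; ring
  have hMem := hX.2 hc i' hiG j' hjG hi0 hij R Z (fun lam => (c lam).image (nmVal D.s (π.u j + z))) gs (fun lam => by
    rw [hRh]
    exact le_trans (by exact_mod_cast Finset.card_image_le) (hc' lam)) hgs
  -- the allowed accuracy
  have hacc' : st ≤ D.s ^ ((1 - π.LS) * (j' - i')) * (D.f j' / D.r j') := by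
    have f1 := (hD.ok.aff.hf j' hjG).1
    have r1 := (hD.ok.aff.hr j' hjG).2
    have r0 := (hcore.hw.2.2 j' hjG).1
    have g1 : D.s ^ (π.n j' + t - (π.u j' - t)) ≤ D.f j' / D.r j' := by
      rw [Real.rpow_sub hs0]
      exact div_le_div₀ (le_trans (Real.rpow_nonneg hs0.le _) f1) f1 r0 r1
    have g2 : (1 : ℝ) ≤ D.s ^ ((1 - π.LS) * (j' - i')) :=
      Real.one_le_rpow_of_pos_of_le_one_of_nonpos hs0 hs1.le (mul_nonpos_of_nonpos_of_nonneg (by linarith) hh0.le)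
    have g3 : st ≤ D.s ^ (π.n j' + t - (π.u j' - t)) := by
      refine nm_me_anti hs0 hs1 ?_
      have : π.n j' - π.u j' = π.b1 j + π.Cr * (j' - j) := by
        unfold SfPar.n SfPar.u SfPar.b1 SfPar.Cr; ring
      have h5 : π.Cr * (j' - j) ≤ π.Cr * t := mul_le_mul_of_nonneg_left hjj'.2 hb.le
      linarith
    calc st ≤ 1 * D.s ^ (π.n j' + t - (π.u j' - t)) := by rw [one_mul]; exact g3
      _ ≤ _ := mul_le_mul g2 g1 (Real.rpow_nonneg hs0.le _) (by linarith)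
  have hsp := hcore.sp j' hjG 1 h1G hj'1
    (fun ω => (D.P 1).p ω ≠ 0 ∧ G ω ∧ D.Xc (π.u j + z) ω ∈ c (D.labAt j ω))
    (fun ρ' => (∃ x ∈ (c (D.lab j' ρ')).image (nmVal D.s (π.u j + z)), |(D.ray j' ρ').X - x| ≤ D.r j' * D.s ^ (π.LS * (j' - i'))) ∧
        ∃ ρ, D.Conn i' j' ρ ρ' ∧ ∃ γ ∈ gs ρ, |γ - D.Pj π j' ρ'| ≤ D.s ^ ((1 - π.LS) * (j' - i')) * (D.f j' / D.r j'))
    (fun ω hω ρ' hρ' => by
      obtain ⟨hp, hGω, hXω⟩ := hω
      refine ⟨?_, ?_⟩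
      · rw [nm_labAt_eq hcore hc (ne_of_lt hj.2) hj'1 hρ'] at hXω
        refine ⟨nmVal D.s (π.u j + z) (D.Xc (π.u j + z) ω), Finset.mem_image_of_mem _ hXω, le_trans ?_ hW⟩
        have a1 := (nm_me_X_lab hcore hjG hj'1 hρ').1
        have a2 := nm_rep_abs hs0 hs1 (π.u j + z) (D.ray 1 ω).X
        have a3 : nmVal D.s (π.u j + z) (D.Xc (π.u j + z) ω) = nmRep D.s (π.u j + z) (D.ray 1 ω).X := rfl
        rw [a3]
        rw [abs_le] at a1 a2 ⊢
        constructor <;> linarith [a1.1, a1.2, a2.1, a2.2]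
      · obtain ⟨ρ, hρ, -⟩ := hcore.clPath hc i' hiG 1 h1G hi'1 ω (lt_of_le_of_ne ((D.P 1).nonneg ω) (Ne.symm hp))
        obtain ⟨ρ'', hρ1, hρ2⟩ := hcore.split i' hiG j' hjG 1 h1G hij hj'1 ρ ω hρ
        have hu : ρ'' = ρ' := nm_conn_uniq hcore hc hjG hj'1 hρ2 hρ'
        subst hu
        refine ⟨ρ, hρ1, ?_⟩
        have hray : D.ray i' ρ = D.ray 1 ω := hcore.normC hc i' hiG 1 h1G hi'1 ρ ω hρ
        have hidx : D.idx i' ρ = D.idx 1 ω := (hcore.base i' hiG 1 h1G hi'1 ρ ω hρ).2.2.1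
        obtain ⟨k, hk, hkb⟩ := hKs2 ρ'' ω hρ'
        have hm := hLf2 ω hp hGω
        have hcl : |D.Pj π j' ρ'' - (nmVal D.s (π.b1 j) (D.Pc π ds (π.b1 j) ω) - 2 * k * (D.ray i' ρ).B)| ≤ Δ := by
          have a2 := nm_rep_abs hs0 hs1 (π.b1 j) (D.raw π ds ω).P
          have a3 : nmVal D.s (π.b1 j) (D.Pc π ds (π.b1 j) ω) = nmRep D.s (π.b1 j) (D.raw π ds ω).P := rfl
          rw [a3, hray]
          have p1 : D.s ^ (π.b1 j' - t) ≤ D.s ^ (π.b1 j - (π.Cr + 1) * t) := by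
            refine nm_me_anti hs0 hs1 ?_
            have : π.b1 j' = π.b1 j + π.Cr * (j' - j) := by unfold SfPar.b1 SfPar.Cr; ring
            have h5 : π.Cr * (-t) ≤ π.Cr * (j' - j) := mul_le_mul_of_nonneg_left hjj'.1 hb.le
            linarith
          have p2 : D.s ^ (π.b1 j) ≤ D.s ^ (π.b1 j - (π.Cr + 1) * t) := by
            refine nm_me_anti hs0 hs1 ?_
            have := mul_nonneg (by linarith : 0 ≤ π.Cr + 1) ht0.le
            linarith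
          rw [abs_le] at a2 hkb ⊢
          rw [hΔ]
          constructor <;> linarith [a2.1, a2.2, hkb.1, hkb.2]
        obtain ⟨γ, hγ, hγb⟩ := hF2 _ _ hcl
        refine ⟨γ, ?_, hγb.trans hacc'⟩
        simp only [gs, Finset.mem_biUnion]
        refine ⟨D.tc (j - z / π.LS) ω, hSc2 ρ ω hρ, D.Pc π ds (π.b1 j) ω, ?_, k, hk, hγ⟩
        have : pair D.y0 (D.tc (j - z / π.LS)) ω = ((D.idx i' ρ, D.ray i' ρ), D.tc (j - z / π.LS) ω) := by
          rw [hray, hidx]; rfl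
        rw [← this]
        exact hm)
  refine le_trans (ent_pr_mono _ fun ω hp hω => ⟨hp, hω.1, hω.2⟩) (hsp.trans ?_)
  have hE := nm_me_expo (R := R) (Z := Z) (ζ := ζ) (acc := acc) hL hM hhl (by
    rw [add_mul, hRh, hZh]
    refine le_of_eq ?_
    field_simp
    ring)
  exact nm_me_final hs0 hs1 (ent_pr_nonneg _ _) hMem (by linarith [hE, hμθ, hMt, hζ]) c3 c4


/-! ## further lists -/

/-- classical: the label met at the depth `j` lists the angular cell of depth `u j`   (`nm_me_met`, `nm_me_X_lab`, `normC`, `hr`, `nm_me_nval_close`: `4 · 2 s^(-(J+1) t) + 3` values) -/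
theorem nm_me_xlist (π : SfPar) (hπ : π.Valid) (hc : π.hyb = false) (C0 τ κ0 : ℝ) (j : ℝ) (hj : 0 < j ∧ j < 1) :
    NmA π C0 τ κ0 fun acc D => (D.P 1).NVal (fun _ => True) (D.Xc (π.u j)) (D.labAt j) (D.s ^ (-acc)) := by
  intro acc hacc
  have hJ := hπ.J0
  have hJ1 : 0 < 2 * (π.J + 1) := by linarith
  obtain ⟨t0, ht0, hε, ht1, hK, hs⟩ := nm_me_t0 (min (acc / (2 * (π.J + 1))) ((1 - j) / 2)) (19 + π.J)
    (lt_min (div_pos hacc hJ1) (by linarith [hj.2]))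
  refine ⟨t0, ht0, fun D hD _ => ?_⟩
  have hC := hD.ok.core
  obtain ⟨hs0, hs1⟩ := hC.hs
  have hne : D.G.Nonempty := ⟨1, hC.gate.1⟩
  have hg := nm_gt_mem D hne j
  have hn := abs_le.1 (nm_gt_near hD hj.1.le hj.2.le)
  have hε1 : (π.J + 1) * t0 ≤ acc / 2 := by
    have h1 := hε.trans (min_le_left _ _)
    rw [le_div_iff₀ hJ1] at h1
    linarith
  have hε2 : t0 ≤ (1 - j) / 2 := hε.trans (min_le_right _ _)
  have hg1 : D.gt j < 1 := by linarith [hn.2]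
  have key : ∀ ω, (D.P 1).p ω ≠ 0 → |(D.ray 1 ω).X - (D.labAt j ω).x| ≤ 2 * D.s ^ (π.u j - (π.J + 1) * t0) := by
    intro ω hω
    have hm := nm_me_met hC hc (Or.inr hg1) hω
    unfold SfDoc.Met at hm
    rw [if_neg hg1.ne] at hm
    obtain ⟨ρ, hl, hcn⟩ := hm
    obtain ⟨x1, x2⟩ := nm_me_X_lab hC hg hg1 hcn
    rw [hl] at x2
    have r1 := (hD.ok.aff.hr _ hg).2
    have r2 : D.s ^ (π.u (D.gt j) - t0) ≤ D.s ^ (π.u j - (π.J + 1) * t0) := nm_pow_anti hs0 hs1 (by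
      unfold SfPar.u
      have := mul_le_mul_of_nonneg_left hn.2 hJ
      linarith)
    have r3 : D.s ^ (1 / t0) ≤ D.s ^ (π.u j - (π.J + 1) * t0) := nm_pow_anti hs0 hs1 (by
      unfold SfPar.u
      have a1 : π.J * (1 - j) ≤ π.J * 1 := mul_le_mul_of_nonneg_left (by linarith [hj.1]) hJ
      have a2 : 0 ≤ (π.J + 1) * t0 := by positivity
      linarith)
    rw [abs_le] at x1 x2 ⊢
    constructor <;> linarith [x1.1, x1.2, x2.1, x2.2]
  have h := nm_me_nval_close (D.P 1) (fun _ => True) (D.labAt j) (fun ω => (D.ray 1 ω).X) hs0 hs1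
    (π.u j - (π.J + 1) * t0) (π.u j) (K := 4) (by norm_num)
    (fun ω ω' hω hω' _ _ hA => by
      have b1 := key ω hω
      have b2 := key ω' hω'
      rw [hA] at b1
      rw [abs_le] at b1 b2 ⊢
      constructor <;> linarith [b1.1, b1.2, b2.1, b2.2])
  refine ltk_nval_mono (D.P 1) h (fun _ h => h) (fun _ _ h => h) ⟨id, fun _ => rfl⟩ ?_
  have hsε : (19 : ℝ) * D.s ^ (acc / 2) ≤ 1 := by
    have h1 := hs D.s hs0 hD.sm
    have h2 : D.s ^ (acc / 2) ≤ D.s ^ (min (acc / (2 * (π.J + 1))) ((1 - j) / 2)) := nm_pow_anti hs0 hs1 (by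
      refine (min_le_left _ _).trans ?_
      rw [div_le_iff₀ hJ1]
      nlinarith)
    have h3 : 0 ≤ D.s ^ (min (acc / (2 * (π.J + 1))) ((1 - j) / 2)) := Real.rpow_nonneg hs0.le _
    nlinarith
  have e2 := nm_me_abs hs0 hs1 (a := -(π.u j - (π.u j - (π.J + 1) * t0))) (c := -acc) (θ := acc / 2) (K := 19) (by norm_num) hsε (by linarith)
  have e3 : (1 : ℝ) ≤ D.s ^ (-(π.u j - (π.u j - (π.J + 1) * t0))) :=
    Real.one_le_rpow_of_pos_of_le_one_of_nonpos hs0 hs1.le (by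
      have a2 : 0 ≤ (π.J + 1) * t0 := by positivity
      linarith)
  linarith

theorem nm_me_aux_plist_num {s t c acc r k n : ℝ} (h0 : 0 < s) (h1 : s < 1) (ht : 0 ≤ t) (hc : 0 ≤ c)
    (hk0 : 0 ≤ k) (hn : n ≤ r * k) (hr : r ≤ s ^ (-(t + t)) + 2) (hk : k ≤ 4 * s ^ (-t) + 3)
    (hacc : (c + 4) * t ≤ acc / 2) (hs : 315 * s ^ (acc / 2) ≤ 1) :
    n * (4 * 3 * s ^ (-((c + 1) * t)) + 3) ≤ s ^ (-acc) := by
  have hA : (1 : ℝ) ≤ s ^ (-t) := Real.one_le_rpow_of_pos_of_le_one_of_nonpos h0 h1.le (by linarith)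
  have hA2 : (1 : ℝ) ≤ s ^ (-(t + t)) := Real.one_le_rpow_of_pos_of_le_one_of_nonpos h0 h1.le (by linarith)
  have hE : (1 : ℝ) ≤ s ^ (-((c + 1) * t)) := Real.one_le_rpow_of_pos_of_le_one_of_nonpos h0 h1.le (by
    have : 0 ≤ (c + 1) * t := by positivity
    linarith)
  have e1 : r ≤ 3 * s ^ (-(t + t)) := by linarith
  have e2 : k ≤ 7 * s ^ (-t) := by linarith
  have e3 : 4 * 3 * s ^ (-((c + 1) * t)) + 3 ≤ 15 * s ^ (-((c + 1) * t)) := by linarith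
  have e4 : r * k ≤ 3 * s ^ (-(t + t)) * (7 * s ^ (-t)) := mul_le_mul e1 e2 hk0 (by positivity)
  have e5 : n * (4 * 3 * s ^ (-((c + 1) * t)) + 3) ≤ 3 * s ^ (-(t + t)) * (7 * s ^ (-t)) * (15 * s ^ (-((c + 1) * t))) :=
    mul_le_mul (hn.trans e4) e3 (by positivity) (by positivity)
  have e6 : 3 * s ^ (-(t + t)) * (7 * s ^ (-t)) * (15 * s ^ (-((c + 1) * t))) = 315 * s ^ (-((c + 4) * t)) := by
    have : s ^ (-((c + 4) * t)) = s ^ (-(t + t)) * s ^ (-t) * s ^ (-((c + 1) * t)) := by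
      rw [← Real.rpow_add h0, ← Real.rpow_add h0]
      congr 1
      ring
    rw [this]
    ring
  rw [e6] at e5
  exact e5.trans (nm_me_abs h0 h1 (θ := acc / 2) (by norm_num) hs (by linarith))

/-- classical, `b_1' > 0`: particle and time cell of depth `a` list the raw final derivative at the depth `b_1 a`   (`clPath`, `nm_me_cell_rows`, `nm_me_plink`, `normC`, `nm_me_centres`) -/
theorem nm_me_plist (π : SfPar) (hπ : π.Valid) (hc : π.hyb = false) (hb : 0 < π.Cr) (C0 τ κ0 : ℝ) (ds : NmDs) (hds : ds.Raw π)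
    (a : ℝ) (ha : 0 < a ∧ a < 1) :
    NmA π C0 τ κ0 fun acc D => (D.P 1).NVal (fun _ => True) (D.Pc π ds (π.b1 a)) (pair D.y0 (D.tc a)) (D.s ^ (-acc)) := by
  intro acc hacc
  have hJ1 : 0 < 2 * (π.Cr + 4) := by linarith
  obtain ⟨t0, ht0, hε, ht1, hK, hs⟩ := nm_me_t0 (min (acc / (2 * (π.Cr + 4))) ((1 - a) / 2)) 315
    (lt_min (div_pos hacc hJ1) (by linarith [ha.2]))
  refine ⟨t0, ht0, fun D hD _ => ?_⟩
  have hC := hD.ok.core
  obtain ⟨hs0, hs1⟩ := hC.hs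
  have hne : D.G.Nonempty := ⟨1, hC.gate.1⟩
  have hg := nm_gt_mem D hne a
  have hn := abs_le.1 (nm_gt_near hD ha.1.le ha.2.le)
  have hε1 : (π.Cr + 4) * t0 ≤ acc / 2 := by
    have h1 := hε.trans (min_le_left _ _)
    rw [le_div_iff₀ hJ1] at h1
    linarith
  have hε2 : t0 ≤ (1 - a) / 2 := hε.trans (min_le_right _ _)
  have hg1 : D.gt a < 1 := by linarith [hn.2]
  obtain ⟨Ks, hKs, hlink⟩ := nm_me_plink hD.ok hπ hc hb hds hg hg1
  intro ω₀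
  obtain ⟨R, hR, hrows⟩ := nm_me_cell_rows hC hc hg hg1 (a := a) (e := t0) (by linarith [hn.2]) (D.y0 ω₀) (D.tc a ω₀)
  obtain ⟨S, hS, hmem⟩ := nm_me_centres hs0 hs1
    ((R ×ˢ Ks).image fun x => D.Pj π (D.gt a) x.1 + 2 * x.2 * (D.y0 ω₀).2.B) (π.b1 a - (π.Cr + 1) * t0) (π.b1 a) 3 (by norm_num)
  refine ⟨S, hS.trans ?_, fun ω hω _ hA => ?_⟩
  · have c1 : (((R ×ˢ Ks).image fun x => D.Pj π (D.gt a) x.1 + 2 * x.2 * (D.y0 ω₀).2.B).card : ℝ) ≤ (R.card : ℝ) * (Ks.card : ℝ) := by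
      have := Finset.card_image_le (s := R ×ˢ Ks) (f := fun x => D.Pj π (D.gt a) x.1 + 2 * x.2 * (D.y0 ω₀).2.B)
      rw [Finset.card_product] at this
      exact_mod_cast this
    have hsε : (315 : ℝ) * D.s ^ (acc / 2) ≤ 1 := by
      have h1 := hs D.s hs0 hD.sm
      have h2 : D.s ^ (acc / 2) ≤ D.s ^ (min (acc / (2 * (π.Cr + 4))) ((1 - a) / 2)) := nm_pow_anti hs0 hs1 (by
        refine (min_le_left _ _).trans ?_
        rw [div_le_iff₀ hJ1]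
        nlinarith)
      linarith
    have e : -(π.b1 a - (π.b1 a - (π.Cr + 1) * t0)) = -((π.Cr + 1) * t0) := by ring
    rw [e]
    exact nm_me_aux_plist_num hs0 hs1 ht0.le hb.le (Nat.cast_nonneg _) c1 hR hKs hε1 hsε
  · obtain ⟨hy, ht⟩ := Prod.mk.inj hA
    obtain ⟨ρ, hcn, -⟩ := hC.clPath hc _ hg 1 hC.gate.1 hg1 ω (lt_of_le_of_ne ((D.P 1).nonneg ω) (Ne.symm hω))
    obtain ⟨k, hk, hkb⟩ := hlink ρ ω hcn
    refine hmem _ ⟨D.Pj π (D.gt a) ρ + 2 * k * (D.y0 ω₀).2.B, Finset.mem_image.2 ⟨(ρ, k), Finset.mem_product.2 ⟨hrows ρ ω hcn hy ht, hk⟩, rfl⟩, ?_⟩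
    have hB : (D.y0 ω₀).2.B = (D.ray 1 ω).B := by rw [← hy]; rfl
    rw [hB]
    have r2 : D.s ^ (π.b1 (D.gt a) - t0) ≤ D.s ^ (π.b1 a - (π.Cr + 1) * t0) := nm_pow_anti hs0 hs1 (by
      unfold SfPar.b1
      have h1 : π.q - π.J = π.Cr := rfl
      rw [h1]
      have := mul_le_mul_of_nonneg_left hn.1 hb.le
      linarith)
    have e : (D.raw π ds ω).P - (D.Pj π (D.gt a) ρ + 2 * k * (D.ray 1 ω).B) = (D.raw π ds ω).P - 2 * k * (D.ray 1 ω).B - D.Pj π (D.gt a) ρ := by ring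
    rw [e]
    linarith

/-- at very coarse depths the derivative has boundedly many bins   (`nm_me_P_bdd`, `nm_me_nval_close`) -/
theorem nm_me_pneg (π : SfPar) (C0 τ κ0 : ℝ) (ds : NmDs) (hDe : ds.De = 1) (x a : ℝ) (hx : x ≤ -(2 * C0 + 1)) :
    NmA π C0 τ κ0 fun acc D => (D.P 1).NVal (fun _ => True) (D.Pc π ds x) (pair D.y0 (D.tc a)) (D.s ^ (-acc)) := by
  intro acc hacc
  obtain ⟨t0, ht0, -, -, -, hs⟩ := nm_me_t0 acc 91 hacc
  refine ⟨t0, ht0, fun D hD _ => ?_⟩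
  have hC := hD.ok.core
  obtain ⟨hs0, hs1⟩ := hC.hs
  have h := nm_me_nval_close (D.P 1) (fun _ => True) (pair D.y0 (D.tc a)) (fun ω => (D.raw π ds ω).P) hs0 hs1 (-(2 * C0 + 1)) x (K := 22) (by norm_num)
    (fun ω ω' _ _ _ _ _ => by
      have b1 := nm_me_P_bdd (π := π) hC hDe ω
      have b2 := nm_me_P_bdd (π := π) hC hDe ω'
      rw [abs_le] at b1 b2 ⊢
      constructor <;> linarith [b1.1, b1.2, b2.1, b2.2])
  refine ltk_nval_mono (D.P 1) h (fun _ h => h) (fun _ _ h => h) ⟨id, fun _ => rfl⟩ ?_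
  have e1 : D.s ^ (-(x - -(2 * C0 + 1))) ≤ 1 := Real.rpow_le_one hs0.le hs1.le (by linarith)
  have e2 := nm_me_abs hs0 hs1 (a := 0) (c := -acc) (θ := acc) (K := 91) (by norm_num) (hs D.s hs0 hD.sm) (by linarith)
  rw [Real.rpow_zero] at e2
  linarith

end

end Claimed.Agent.R256
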